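import Vale.Agent.P014Y.C.As.St
import Vale.Agent.P014Y.C.Al.Hc

/-!
# P014 Y, C, block AS: ray classes
-/

open NumberField Module Ideal
open scoped Classical

noncomputable section

namespace Vale.Agent.P014Y.C.As

namespace Ra

variable {M : Type} [Field M] [NumberField M] {f A I I' L L' : Ideal (𝓞 M)}

/-- ray equivalence -/
def R (f I I' : Ideal (𝓞 M)) : Prop := ∃ y z : 𝓞 M, y - 1 ∈ f ∧ z - 1 ∈ f ∧ y ≠ 0 ∧ z ≠ 0 ∧
  span {z} * I = span {y} * I'

omit [NumberField M] in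
theorem e_iff : (∃ x, E f x I I') ↔ R f I I' :=
  ⟨fun ⟨_, y, z, a, b, c, d, _, e⟩ => ⟨y, z, a, b, c, d, e⟩, fun ⟨y, z, a, b, c, d, e⟩ =>
    ⟨y / z, y, z, a, b, c, d, div_mul_cancel₀ _ (by exact_mod_cast d), e⟩⟩

omit [NumberField M] in
theorem mul_one' {y z : 𝓞 M} (hy : y - 1 ∈ f) (hz : z - 1 ∈ f) : y * z - 1 ∈ f := by
  rw [show y * z - 1 = y * (z - 1) + (y - 1) by ring]
  exact add_mem (mul_mem_left _ _ hz) hy

omit [NumberField M] in
theorem R.mul (h : R f I I') (k : R f L L') : R f (I * L) (I' * L') := by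
  obtain ⟨y, z, a, b, c, d, e⟩ := h
  obtain ⟨y', z', a', b', c', d', e'⟩ := k
  refine ⟨y * y', z * z', mul_one' a a', mul_one' b b', mul_ne_zero c c', mul_ne_zero d d', ?_⟩
  rw [← span_singleton_mul_span_singleton, ← span_singleton_mul_span_singleton, mul_mul_mul_comm,
    e, e', mul_mul_mul_comm]

omit [NumberField M] in
theorem R.trans (h : R f I I') (k : R f I' L) : R f I L := by
  obtain ⟨y, z, a, b, c, d, e⟩ := h
  obtain ⟨y', z', a', b', c', d', e'⟩ := k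
  refine ⟨y * y', z' * z, mul_one' a a', mul_one' b' b, mul_ne_zero c c', mul_ne_zero d' d, ?_⟩
  rw [← span_singleton_mul_span_singleton, ← span_singleton_mul_span_singleton, mul_assoc, e,
    mul_left_comm, e', mul_assoc]

/-- the ideals prime to `f` -/
def S (f : Ideal (𝓞 M)) : Submonoid (Ideal (𝓞 M)) where
  carrier := {I | Cp f I}
  mul_mem' a b := ⟨mul_ne_zero a.1 b.1, isCoprime_iff_sup_eq.1
    ((isCoprime_iff_sup_eq.2 a.2).mul_left (isCoprime_iff_sup_eq.2 b.2))⟩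
  one_mem' := ⟨one_ne_zero, by simp⟩

/-- the congruence -/
def cn (f : Ideal (𝓞 M)) : Con (S f) where
  r a b := R f a b
  iseqv := ⟨fun _ => ⟨1, 1, by simp, by simp, one_ne_zero, one_ne_zero, rfl⟩,
    fun ⟨y, z, a, b, c, d, e⟩ => ⟨z, y, b, a, d, c, e.symm⟩, R.trans⟩
  mul' := R.mul

theorem one_of {a : S f} {x : 𝓞 M} (x0 : x ≠ 0) (hx : x - 1 ∈ f) (e : span {x} = a.1) :
    (a : (cn f).Quotient) = 1 :=
  (cn f).eq.2 ⟨x, 1, hx, by simp, x0, one_ne_zero, by simp [e]⟩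

theorem unit (hf : f ≠ ⊥) (q : (cn f).Quotient) : IsUnit q := by
  obtain ⟨a, rfl⟩ := (cn f).mk'_surjective q
  obtain ⟨n, n0, x, x0, hx, e⟩ := ex_gen hf a.2.1 a.2.2
  exact IsUnit.of_pow_eq_one (n := n) (by rw [← map_pow]; exact one_of x0 hx e) n0.ne'

/-- an inverse modulo `f` which is prime to `A` -/
theorem lift (hA : A ≠ ⊥) {x : 𝓞 M} (h : span {x} ⊔ f = ⊤) :
    ∃ c : 𝓞 M, c ≠ 0 ∧ c * x - 1 ∈ f ∧ span {c} ⊔ A = ⊤ := by
  obtain ⟨m, hm⟩ := Ideal.exists_maximal (𝓞 M)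
  have hB : A * m ≠ ⊥ := mul_ne_zero hA
    (Ring.ne_bot_of_isMaximal_of_not_isField hm (RingOfIntegers.not_isField M))
  obtain ⟨a, ha, t, ht, e⟩ := isCoprime_iff_exists.1 (isCoprime_iff_sup_eq.2 h)
  obtain ⟨c, rfl⟩ := mem_span_singleton'.1 ha
  have := finiteQuotientOfFreeOfNeBot _ hB
  obtain ⟨i, n, k⟩ : ∃ i n : ℕ, c ^ i * (1 - c ^ (n + 1)) ∈ A * m := by
    obtain ⟨i, j, ne, k⟩ := Finite.exists_ne_map_eq_of_infinite
      fun i : ℕ => Ideal.Quotient.mk (A * m) (c ^ i)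
    wlog lt : i < j generalizing i j
    · exact this j i ne.symm k.symm (by omega)
    obtain ⟨n, rfl⟩ := Nat.exists_eq_add_of_lt lt
    exact ⟨i, n, by simpa [mul_sub, pow_add, mul_assoc] using Ideal.Quotient.eq.1 k⟩
  have key : span {c + (1 - c ^ (n + 1)) * t} ⊔ A * m = ⊤ := by
    by_contra w
    obtain ⟨P, hP, le⟩ := exists_le_maximal _ w
    have p1 := (span_singleton_le_iff_mem _).1 (le_sup_left.trans le)
    have p2 := (le_sup_right.trans le) k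
    have c0 : c ∈ P := by
      rcases hP.isPrime.mem_or_mem p2 with b | b
      · exact hP.isPrime.mem_of_pow_mem _ b
      · exact (P.add_mem_iff_left (P.mul_mem_right _ b)).1 p1
    refine (ne_top_iff_one _).1 hP.ne_top ?_
    rw [show (1 : 𝓞 M) = (c + (1 - c ^ (n + 1)) * t) + c * (x - 1 + c ^ n * t) by
      linear_combination -e]
    exact add_mem p1 (P.mul_mem_right _ c0)
  refine ⟨_, fun z => hm.ne_top (top_unique ?_), ?_, top_unique
    (key.ge.trans (sup_le_sup_left mul_le_left _))⟩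
  · rw [← key, z]
    simpa using mul_le_right
  · rw [show (c + (1 - c ^ (n + 1)) * t) * x - 1 = ((1 - c ^ (n + 1)) * x - 1) * t by
      linear_combination e]
    exact mul_mem_left _ _ ht

theorem inv_ex (hf : f ≠ ⊥) (hA : A ≠ ⊥) (h : Cp f I) : ∃ B, Cp f B ∧ B ⊔ A = ⊤ ∧
    ∃ x : 𝓞 M, x ≠ 0 ∧ x - 1 ∈ f ∧ span {x} = I * B := by
  obtain ⟨x, hx⟩ := IsDedekindDomain.exists_sup_span_eq (I := I * (f * A)) (J := I)
    mul_le_left (mul_ne_zero h.1 (mul_ne_zero hf hA))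
  obtain ⟨y, y0, hy⟩ : ∃ y : 𝓞 M, y ≠ 0 ∧ I * (f * A) ⊔ span {y} = I := by
    by_cases z : x = 0
    · obtain ⟨y, h1, h2⟩ := (Submodule.ne_bot_iff _).1 h.1
      rw [z, span_singleton_eq_bot.2 rfl, sup_bot_eq] at hx
      exact ⟨y, h2, by rw [hx, sup_eq_left.2 ((span_singleton_le_iff_mem _).2 h1)]⟩
    · exact ⟨x, z, hx⟩
  obtain ⟨B, hB⟩ := dvd_iff_le.2 (le_sup_right.trans hy.le)
  have k : f * A ⊔ B = ⊤ := mul_left_cancel₀ h.1 (by rw [Ideal.mul_sup, ← hB, hy, mul_top])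
  have B0 : B ≠ ⊥ := fun z => y0 (span_singleton_eq_bot.1 (by rw [hB, z, mul_bot]))
  have B1 : Cp f B := ⟨B0, top_unique (k.ge.trans
    (sup_le (mul_le_left.trans le_sup_right) le_sup_left))⟩
  have B2 : B ⊔ A = ⊤ := top_unique (k.ge.trans
    (sup_le (mul_le_right.trans le_sup_right) le_sup_left))
  obtain ⟨c, c0, c1, c2⟩ := lift hA (f := f) (x := y) (by
    rw [hB]; exact ((S f).mul_mem h B1).2)
  have C1 : Cp f (span {c}) := ⟨span_singleton_eq_bot.not.2 c0, (eq_top_iff_one _).2 (by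
    simpa using sub_mem (mem_sup_left (mul_mem_right y _ (mem_span_singleton_self c)))
      (mem_sup_right c1))⟩
  refine ⟨span {c} * B, (S f).mul_mem C1 B1, isCoprime_iff_sup_eq.1
    ((isCoprime_iff_sup_eq.2 c2).mul_left (isCoprime_iff_sup_eq.2 B2)), c * y,
    mul_ne_zero c0 y0, c1, ?_⟩
  rw [← span_singleton_mul_span_singleton, hB, mul_left_comm]

theorem rep (hf : f ≠ ⊥) (hA : A ≠ ⊥) (q : (cn f).Quotient) :
    ∃ b : S f, (b : (cn f).Quotient) = q ∧ b.1 ⊔ A = ⊤ := by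
  obtain ⟨u, rfl⟩ := unit hf q
  obtain ⟨a, ha⟩ := (cn f).mk'_surjective (u⁻¹ : (cn f).Quotientˣ)
  obtain ⟨B, b1, b2, x, x0, hx, e⟩ := inv_ex hf hA a.2
  have k := one_of (a := a * ⟨B, b1⟩) x0 hx e
  rw [Con.coe_mul, show (a : (cn f).Quotient) = (u⁻¹ : (cn f).Quotientˣ) from ha] at k
  exact ⟨⟨B, b1⟩, (Units.inv_mul_eq_one.1 k).symm, b2⟩

theorem fin (hf : f ≠ ⊥) : Finite (cn f).Quotient := by
  let cl : S f → ClassGroup (𝓞 M) := fun a =>
    ClassGroup.mk0 ⟨a.1, mem_nonZeroDivisors_of_ne_zero a.2.1⟩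
  have H : ∀ C : ClassGroup (𝓞 M), ∃ b : S f, ∀ a, cl a = C → ∃ x, span {x} = a.1 * b.1 := by
    intro C
    by_cases k : ∃ a, cl a = C
    · obtain ⟨a, rfl⟩ := k
      refine ⟨a ^ (Fintype.card (ClassGroup (𝓞 M)) - 1), fun a' e => ?_⟩
      have z := mul_mem (mem_nonZeroDivisors_of_ne_zero a'.2.1)
        (pow_mem (mem_nonZeroDivisors_of_ne_zero a.2.1) (Fintype.card (ClassGroup (𝓞 M)) - 1))
      have w : cl a' * cl a ^ (Fintype.card (ClassGroup (𝓞 M)) - 1) = 1 := by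
        rw [e, ← pow_succ', Nat.sub_add_cancel Fintype.card_pos, pow_card_eq_one]
      obtain ⟨y, hy⟩ := (ClassGroup.mk0_eq_one_iff z).1 (by
        rw [← w, ← map_pow, ← map_mul]; rfl)
      exact ⟨y, hy.symm⟩
    · exact ⟨1, fun a e => (k ⟨a, e⟩).elim⟩
  choose b hb using H
  choose g hg using fun a => hb (cl a) a rfl
  have := finiteQuotientOfFreeOfNeBot _ hf
  choose o ho using (cn f).mk'_surjective
  refine Finite.of_injective (fun q => (cl (o q), Ideal.Quotient.mk f (g (o q)))) fun q q' e => ?_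
  obtain ⟨e1, e2⟩ := Prod.mk.inj e
  have cp := fun a => (S f).mul_mem a.2 (b (cl a)).2
  have g0 : ∀ a, g a ≠ 0 := fun a z => (cp a).1 (hg a ▸ span_singleton_eq_bot.2 z)
  obtain ⟨c, c0, c1, -⟩ := lift hf (x := g (o q)) (hg _ ▸ (cp _).2)
  rw [← ho q, ← ho q']
  refine (cn f).eq.2 ⟨c * g (o q), c * g (o q'), c1, ?_, mul_ne_zero c0 (g0 _),
    mul_ne_zero c0 (g0 _), ?_⟩
  · simpa [mul_sub] using sub_mem c1 (mul_mem_left f c (Ideal.Quotient.eq.1 e2))
  · rw [← span_singleton_mul_span_singleton, ← span_singleton_mul_span_singleton, hg, hg, e1]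
    ring

end Ra

open Ra in
theorem ray : RAY := by
  intro M _ _ f A hf hA
  have := fin hf
  choose B h1 h2 using rep hf hA
  refine ⟨(cn f).Quotient, Fintype.ofFinite _, fun j => (B j).1, fun j => ⟨(B j).2, h2 j⟩,
    fun Q I hQ hI => ?_⟩
  have k : ∀ j, (∃ x, E f x (I * (B j).1) Q) ↔
      ((⟨I, hI⟩ : S f) : (cn f).Quotient) * j = (⟨Q, hQ⟩ : S f) := fun j => by
    rw [e_iff, ← h1 j, ← Con.coe_mul, (cn f).eq, h1]
    rfl
  obtain ⟨u, hu⟩ := unit hf ((⟨I, hI⟩ : S f) : (cn f).Quotient)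
  simp only [k, ← hu, ← Units.eq_inv_mul_iff_mul_eq, existsUnique_eq]

end Vale.Agent.P014Y.C.As
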