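import Vale.Agent.P014Y.C.As.Defs

/-!
# P014 Y, C, block AS: the embeddings above `J`
-/

set_option linter.unusedSectionVars false

open NumberField Module Finset
open scoped Classical

noncomputable section

namespace Vale.Agent.P014Y.C.As

open P004C.An

variable {K : Type} [Field K] [NumberField K] {ι : ℂ →+* ℂ_[3]} {J : K →+* ℂ} {Ω : ℝ}
  {M : Type} [Field M] [NumberField M] [Algebra K M] {n : ℕ} {σ : Fin n → M →+* ℂ}

theorem fd (K M : Type) [Field K] [NumberField K] [Field M] [NumberField M] [Algebra K M] :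
    FiniteDimensional K M := Module.Finite.of_restrictScalars_finite ℚ K M

theorem ex_sg (J : K →+* ℂ) (h : finrank K M = n) : ∃ σ : Fin n → M →+* ℂ, Sg J σ := by
  let _ := J.toAlgebra
  have _ := fd K M
  have e : (M →ₐ[K] ℂ) ≃ Fin n := Fintype.equivFinOfCardEq ((AlgHom.card K M ℂ).trans h)
  exact ⟨fun i => (e.symm i : M →+* ℂ), h, fun i j k => e.symm.injective (AlgHom.coe_ringHom_injective k),
    fun i x => (e.symm i).commutes x⟩

theorem Sg.onto (h : Sg J σ) (τ : M →+* ℂ) (hτ : ∀ x, τ (algebraMap K M x) = J x) :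
    ∃ i, σ i = τ := by
  let _ := J.toAlgebra
  have _ := fd K M
  let F : Fin n → M →ₐ[K] ℂ := fun i => { σ i with commutes' := h.ext i }
  have hF : Function.Injective F := fun i j k => h.inj (congrArg AlgHom.toRingHom k)
  have := (Fintype.bijective_iff_injective_and_card F).2
    ⟨hF, by rw [AlgHom.card K M ℂ, h.rk, Fintype.card_fin]⟩
  obtain ⟨i, e⟩ := this.2 { τ with commutes' := hτ }
  exact ⟨i, congrArg AlgHom.toRingHom e⟩

theorem Sg.both (h : Sg J σ) (x : M) : ∏ i, σ i x = J (Algebra.norm K x) ∧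
    ∑ i, σ i x = J (Algebra.trace K M x) := by
  let _ := J.toAlgebra
  have _ := fd K M
  let F : Fin n → M →ₐ[K] ℂ := fun i => { σ i with commutes' := h.ext i }
  have hF : Function.Bijective F := ⟨fun i j k => h.inj (congrArg AlgHom.toRingHom k), fun τ => by
    obtain ⟨i, e⟩ := h.onto (τ : M →+* ℂ) τ.commutes
    exact ⟨i, AlgHom.coe_ringHom_injective e⟩⟩
  exact ⟨(hF.prod_comp fun τ => τ x).trans (Algebra.norm_eq_prod_embeddings K ℂ x).symm,
    (hF.sum_comp fun τ => τ x).trans (trace_eq_sum_embeddings ℂ).symm⟩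

theorem Sg.lf (h : Sg J σ) (t x : M) :
    lf (fun i => σ i t) (fun i => σ i x) = J (Algebra.trace K M (t * x)) := by
  rw [← (h.both _).2]
  simp only [P004C.An.lf, map_mul]

theorem two_emb (hB : Base ι J Ω) (τ : K →+* ℂ) : τ = J ∨ τ = ComplexEmbedding.conjugate J := by
  have h1 : J ≠ ComplexEmbedding.conjugate J := fun e =>
    hB.im.false (ComplexEmbedding.IsReal.embedding (φ := J) (by
      rw [ComplexEmbedding.isReal_iff]; exact e.symm))
  have h2 : ({J, ComplexEmbedding.conjugate J} : Finset (K →+* ℂ)) = univ :=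
    eq_univ_of_card _ (by rw [card_pair h1, Embeddings.card, hB.two])
  have := mem_univ τ
  rw [← h2] at this
  simpa using this

theorem one_le (hB : Base ι J Ω) {z : K} (hz : IsIntegral ℤ z) (h0 : z ≠ 0) : 1 ≤ ‖J z‖ := by
  have := InfinitePlace.one_le_of_lt_one (w := InfinitePlace.mk J) (a := ⟨z, hz⟩)
    (fun e => h0 (congrArg Subtype.val e)) (fun w hw => absurd (by
      rw [← w.mk_embedding]
      rcases two_emb hB w.embedding with e | e
      · rw [e]
      · rw [e, InfinitePlace.mk_conjugate_eq]) hw)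
  rw [InfinitePlace.apply] at this
  exact this

theorem Sg.fin (hB : Base ι J Ω) (h : Sg J σ) (R : ℝ) :
    {x : 𝓞 M | ∀ i, ‖σ i x‖ ≤ R}.Finite := by
  refine Set.Finite.of_finite_image (f := fun x : 𝓞 M => (x : M))
    ((Embeddings.finite_of_norm_le M ℂ R).subset ?_) RingOfIntegers.coe_injective.injOn
  rintro _ ⟨x, hx, rfl⟩
  refine ⟨x.isIntegral_coe, fun τ => ?_⟩
  rcases two_emb hB (τ.comp (algebraMap K M)) with e | e
  · obtain ⟨i, rfl⟩ := h.onto τ fun y => DFunLike.congr_fun e y
    exact hx i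
  · obtain ⟨i, k⟩ := h.onto (ComplexEmbedding.conjugate τ) fun y => by
      have := DFunLike.congr_fun e y
      simp only [RingHom.comp_apply, ComplexEmbedding.conjugate_coe_eq] at this ⊢
      rw [this, Complex.conj_conj]
    have := hx i
    rwa [k, ComplexEmbedding.conjugate_coe_eq, Complex.norm_conj] at this

theorem tr_int (x : 𝓞 M) : IsIntegral ℤ (Algebra.trace K M (x : M)) := by
  have _ := fd K M
  exact Algebra.isIntegral_trace x.isIntegral_coe

end Vale.Agent.P014Y.C.As
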