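import Vale.Agent.P014Y.C.As.St
import Vale.Agent.P014Y.C.As.Emb
import Vale.Agent.P014Y.C.Al.Dis0

/-!
# P014 Y, C, block AS: valuations at `v`
-/

set_option linter.all false

open NumberField Module
open scoped Classical

noncomputable section

namespace Vale.Agent.P014Y.C.As

namespace Va

open Al.Gx Al.Ds

variable {K : Type} [Field K] [NumberField K] {ι : ℂ →+* ℂ_[3]} {J : K →+* ℂ} {Ω : ℝ}
  {M : Type} [Field M] [NumberField M] [Algebra K M]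

theorem vv_ne : vv ι J ≠ ⊥ := fun h =>
  (by norm_num : (3 : 𝓞 K) ≠ 0) (Ideal.mem_bot.1 (h ▸ two_vv (ι := ι) (J := J)))

theorem vv_max : (vv ι J).IsMaximal := vv_prime.isMaximal vv_ne

theorem ex_pi : ∃ π : 𝓞 K, ‖ι (J π)‖ < 1 ∧ Vp ι J π := by
  let c : nonZeroDivisors (Ideal (𝓞 K)) := ⟨vv ι J, mem_nonZeroDivisors_of_ne_zero vv_ne⟩
  have h0 : Fintype.card (ClassGroup (𝓞 K)) ≠ 0 := Fintype.card_ne_zero
  obtain ⟨π, e⟩ := (ClassGroup.mk0_eq_one_iff (c ^ Fintype.card (ClassGroup (𝓞 K))).2).1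
    (by rw [Subtype.coe_eta, map_pow, pow_card_eq_one])
  have e : vv ι J ^ Fintype.card (ClassGroup (𝓞 K)) = Ideal.span {π} := e
  refine ⟨π, Ideal.pow_le_self h0 (e.ge (Ideal.mem_span_singleton_self π)), fun s h => ?_⟩
  rw [← Ideal.isCoprime_span_singleton_iff, ← e]
  exact (Ideal.isCoprime_iff_sup_eq.2 (vv_max.out.2 _ (left_lt_sup.2 fun k =>
    not_vv.2 h (k (Ideal.mem_span_singleton_self s))))).pow_left

theorem le_vv {s : 𝓞 K} (h : Vp ι J s) {Q : Ideal (𝓞 K)} (p : Q ≠ ⊤) (k : s ∈ Q) : Q ≤ vv ι J :=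
  fun s' a => by_contra fun n => by
    obtain ⟨x, y, e⟩ := h s' (not_vv.1 n)
    exact p ((Ideal.eq_top_iff_one _).2 (e ▸ add_mem (Q.mul_mem_left x k) (Q.mul_mem_left y a)))

theorem vp (hB : Base ι J Ω) {s : 𝓞 K} (h : Vp ι J s) :
    ‖ι ((starRingEnd ℂ) (J s))‖ = 1 ∧ ∃ a : ℕ, s ∣ 3 ^ a := by
  have k : s ∉ vv (ι.comp (starRingEnd ℂ)) J := fun k => by
    obtain ⟨x, a, b⟩ := hB.spl
    exact not_vv.2 b ((vv_max.eq_of_le vv_prime.ne_top (le_vv h vv_prime.ne_top k)).ge a)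
  refine ⟨not_vv.1 k, ?_⟩
  have : (3 : 𝓞 K) ∈ (Ideal.span {s}).radical := by
    rw [Ideal.radical_eq_sInf, Submodule.mem_sInf]
    rintro Q ⟨a, b⟩
    have c := a (Ideal.mem_span_singleton_self s)
    have d : Q ≠ ⊥ := fun j => k ((Ideal.mem_bot.1 (j ▸ c)).symm ▸ zero_mem _)
    exact ((b.isMaximal d).eq_of_le vv_prime.ne_top (le_vv h b.ne_top c)).ge two_vv
  exact this.imp fun a => Ideal.mem_span_singleton.1

theorem ov_iff {w : K} : w ∈ Ov ι J K ↔ ‖ι (J w)‖ ≤ 1 := by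
  refine ⟨ov_nm, fun h => ?_⟩
  obtain ⟨n, ⟨d, hd⟩, e | e⟩ := IsDedekindDomain.HeightOneSpectrum.exists_primeCompl_mul_eq_or_mul_eq
    ⟨vv ι J, vv_prime, vv_ne⟩ w
  · exact ⟨d, not_vv.1 hd, by
      rw [mul_comm]; exact (e : w * d = n) ▸ n.isIntegral_coe⟩
  · have e : w * n = d := e
    refine ⟨n, (nm_le n).antisymm ?_, by rw [mul_comm]; exact e ▸ d.isIntegral_coe⟩
    rw [← not_vv.1 hd, ← e, map_mul, map_mul, norm_mul]
    exact mul_le_of_le_one_left (norm_nonneg _) h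

theorem vi_iff (w : K) : Vi ι J (algebraMap K M w) ↔ ‖ι (J w)‖ ≤ 1 := ov_map.trans ov_iff

theorem pv_iff (x : 𝓞 M) : Pv ι J (Ideal.span {x}) ↔ ‖ι (J (Algebra.norm K (x : M)))‖ = 1 := by
  have _ := fd K M
  have le : ∀ y : 𝓞 M, ‖ι (J (Algebra.norm K (y : M)))‖ ≤ 1 := fun y => ov_nm (ov_norm (int_Ov y))
  refine ⟨fun ⟨s, a, b⟩ => (le x).antisymm ?_, fun h => ⟨Algebra.intNorm (𝓞 K) (𝓞 M) x, ?_,
    Ideal.mem_span_singleton.2 (Algebra.dvd_algebraMap_intNorm_self _ _ x)⟩⟩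
  · obtain ⟨y, e⟩ := Ideal.mem_span_singleton.1 b
    have e : algebraMap K M s = x * y := congrArg (fun z : 𝓞 M => (z : M)) e
    have e := congrArg (fun z => ‖ι (J (Algebra.norm K z))‖) e
    simp only [Algebra.norm_algebraMap, map_pow, map_mul, norm_pow, norm_mul, a, one_pow] at e
    exact e.le.trans (mul_le_of_le_one_right (norm_nonneg _) (le y))
  · exact (congrArg (fun z => ‖ι (J z)‖) (Algebra.algebraMap_intNorm (K := K) (L := M) x)).trans h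

theorem inv_of {z : M} (h : Vi ι J z) (k : ‖ι (J (Algebra.norm K z))‖ = 1) : Vi ι J z⁻¹ := by
  have _ := fd K M
  obtain ⟨s, a, b⟩ := h
  obtain ⟨-, c⟩ := inv_Ov ((pv_iff (ι := ι) (J := J) ⟨_, b⟩).2 (by
    change ‖ι (J (Algebra.norm K (algebraMap K M s * z)))‖ = 1
    simp [Algebra.norm_algebraMap, a, k]))
  have := mul_mem c (int_Ov (algebraMap (𝓞 K) (𝓞 M) s))
  change (algebraMap K M s * z)⁻¹ * algebraMap K M s ∈ _ at this
  rwa [mul_inv_rev, inv_mul_cancel_right₀ (ne_of a)] at this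

theorem emb_le {σ : M →+* ℂ} (h : ∀ x, σ (algebraMap K M x) = J x) {z : M} (k : Vi ι J z) :
    ‖ι (σ z)‖ ≤ 1 := by
  obtain ⟨s, a, b⟩ := k
  simpa [h, a] using nm_int (ι.comp σ) b

theorem prod_sub {α : Type} (s : Finset α) (a b : α → ℂ_[3]) {δ : ℝ} (h0 : 0 ≤ δ)
    (ha : ∀ i, ‖a i‖ ≤ 1) (hb : ∀ i, ‖b i‖ ≤ 1) (h : ∀ i, ‖a i - b i‖ ≤ δ) :
    ‖∏ i ∈ s, a i - ∏ i ∈ s, b i‖ ≤ δ := by
  induction s using Finset.cons_induction with
  | empty => simpa using h0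
  | cons i s hi ih =>
    rw [Finset.prod_cons, Finset.prod_cons, show a i * ∏ j ∈ s, a j - b i * ∏ j ∈ s, b j =
      a i * (∏ j ∈ s, a j - ∏ j ∈ s, b j) + (a i - b i) * ∏ j ∈ s, b j by ring]
    refine (IsUltrametricDist.norm_add_le_max _ _).trans (max_le ?_ ?_) <;> rw [norm_mul]
    · exact (mul_le_of_le_one_left (norm_nonneg _) (ha i)).trans ih
    · refine (mul_le_of_le_one_right (norm_nonneg _) ?_).trans (h i)
      rw [norm_prod]
      exact Finset.prod_le_one (fun _ _ => norm_nonneg _) fun j _ => hb j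

theorem cont (z x : M) (m : ℕ) (h : Vi ι J z) (k : Vi ι J ((x - z) / 3 ^ m)) :
    ‖ι (J (Algebra.norm K x)) - ι (J (Algebra.norm K z))‖ ≤ ‖(3 : ℂ_[3])‖ ^ m := by
  obtain ⟨σ, hσ⟩ := ex_sg J (rfl : finrank K M = _)
  have e : x = z + 3 ^ m * ((x - z) / 3 ^ m) := by field_simp; ring
  have hx : x ∈ Ov ι J M := e ▸ add_mem (mem_Ov.2 h) (mul_mem (pow_mem (ofNat_mem _ 3) m) k)
  rw [← (hσ.both x).1, ← (hσ.both z).1, map_prod, map_prod]
  refine prod_sub _ _ _ (by positivity) (fun i => emb_le (hσ.ext i) hx)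
    (fun i => emb_le (hσ.ext i) h) fun i => ?_
  have := emb_le (hσ.ext i) k
  rw [map_div₀, map_div₀, norm_div, map_sub, map_sub, map_pow, map_pow, map_ofNat, map_ofNat,
    norm_pow] at this
  exact (div_le_one (pow_pos (norm_pos_iff.2 three_ne_zero) m)).1 this

theorem apx (f : Ideal (𝓞 M)) (z : M) (m : ℕ) (hf : Pv ι J f) (h : Vi ι J z) :
    ∃ x : 𝓞 M, x - 1 ∈ f ∧ Vi ι J ((x - z) / 3 ^ m) := by
  obtain ⟨t, t1, t2⟩ := hf
  obtain ⟨s, s1, s2⟩ := id h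
  obtain ⟨π, p1, p2⟩ := ex_pi (ι := ι) (J := J)
  have p0 : 0 < ‖(3 : ℂ_[3])‖ ^ m := pow_pos (norm_pos_iff.2 three_ne_zero) m
  obtain ⟨N, hN⟩ := exists_pow_lt_of_lt_one p0 p1
  obtain ⟨α, β, e⟩ := (p2 (s * t) (by simp [s1, t1])).pow_left (m := N)
  have k : Vi ι J (algebraMap K M (π ^ N / 3 ^ m)) := (vi_iff _).2 (by
    rw [map_div₀, map_div₀, norm_div, map_pow, map_pow, map_pow, map_pow, map_ofNat, map_ofNat,
      norm_pow, norm_pow]
    exact (div_le_one p0).2 hN.le)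
  refine ⟨1 + algebraMap (𝓞 K) (𝓞 M) t * (algebraMap (𝓞 K) (𝓞 M) β *
    (⟨_, s2⟩ - algebraMap (𝓞 K) (𝓞 M) s)), by simpa using f.mul_mem_right _ t2, ?_⟩
  have e : algebraMap K M α * algebraMap K M π ^ N + algebraMap K M β *
      (algebraMap K M s * algebraMap K M t) = 1 := by
    simpa using congrArg (fun y : 𝓞 K => algebraMap K M y) e
  have e1 : (1 + algebraMap K M t * (algebraMap K M β * (algebraMap K M s * z - algebraMap K M s)) -
      z) / 3 ^ m = algebraMap K M α * algebraMap K M (π ^ N / 3 ^ m) * (1 - z) := by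
    rw [map_div₀, map_pow, map_pow, map_ofNat]
    linear_combination (z - 1) / 3 ^ m * e
  exact mem_Ov.1 (e1.symm ▸ mul_mem (mul_mem (int_Ov (algebraMap (𝓞 K) (𝓞 M) α)) (mem_Ov.2 k))
    (sub_mem (one_mem _) (mem_Ov.2 h)))

end Va

theorem val : VAL := fun K _ _ ι J Ω hB => ⟨Va.ex_pi, fun _ => Va.vp hB, fun M _ _ _ =>
  ⟨Va.vi_iff, fun z h => ⟨Al.Ds.ov_nm (Al.Ds.ov_tr h), Al.Ds.ov_nm (Al.Ds.ov_norm h), Va.inv_of h⟩,
    Va.cont, Va.apx, Va.pv_iff⟩⟩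

end Vale.Agent.P014Y.C.As
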