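import Vale.Agent.P014Y.C.As.All

/-!
# P014 Y, C, block AS: series over ideals with two test functions at `v`
-/

set_option linter.unusedSectionVars false

open NumberField Module Finset Ideal
open scoped Classical

noncomputable section

namespace Vale.Agent.P014Y.C.As

open P004C.An Lc

section

variable {K : Type} [Field K] [NumberField K] (ι : ℂ →+* ℂ_[3]) (J : K →+* ℂ)
  {M : Type} [Field M] [NumberField M] [Algebra K M]

/-- `g N ^ (k - 1)` is within `δ` of `ν g' N ^ (k' - 1)` on the discs -/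
def N2 (m k k' : ℕ) {μ : Type} (y : μ → M) (g g' : μ → ℂ) (ν : ℂ_[3]) (δ : ℝ) : Prop :=
  ∀ i y', Fd ι J m (y' - y i) → ‖ι (g i) * ι (J (Algebra.norm K y')) ^ (k - 1) -
    ν * (ι (g' i) * ι (J (Algebra.norm K y')) ^ (k' - 1))‖ ≤ δ

/-- invariance under a group of units -/
def Iu (U : Subgroup (𝓞 M)ˣ) (ψ : AddChar K ℂ) (m n : ℕ) {μ : Type} [Fintype μ] (y : μ → M)
    (g : μ → ℂ) : Prop :=
  ∀ u ∈ U, ∀ x, hv ι J ψ m n y g (((u : 𝓞 M) : M) * x) = hv ι J ψ m n y g x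

/-- weight `k` under the units which are `1` modulo `f` -/
def Iv (f : Ideal (𝓞 M)) (ψ : AddChar K ℂ) (m n : ℕ) {μ : Type} [Fintype μ] (y : μ → M) (k : ℕ)
    (g : μ → ℂ) : Prop :=
  ∀ u : (𝓞 M)ˣ, (u : 𝓞 M) - 1 ∈ f → ∀ x, hv ι J ψ m n y g (((u : 𝓞 M) : M) * x) =
    J (Algebra.norm K ((u : 𝓞 M) : M)) ^ k * hv ι J ψ m n y g x

end

/-- series over ideals, two test functions -/
def IDL2 : Prop := ∀ (K : Type) [Field K] [NumberField K] (ι : ℂ →+* ℂ_[3]) (J : K →+* ℂ) (Ω : ℝ),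
  Base ι J Ω → ∃ (Ωp : ℂ_[3]) (ψ : AddChar K ℂ), ‖Ωp‖ = Ω ∧ Ps ι J ψ ∧
  ∀ (M : Type) [Field M] [NumberField M] [Algebra K M] (n : ℕ) (b : Basis (Fin n) K M),
  Vb ι J b → ∀ (c : Ideal (𝓞 M)) (l : ℕ), Sm c l → ∀ f : Ideal (𝓞 M), Pv ι J f →
  f ⊔ Ideal.span {(l : 𝓞 M)} = ⊤ → (∃ w : Ideal (𝓞 M), w.IsMaximal ∧ f ≤ w ∧ 3 ∉ w) →
  ∀ m : ℕ, ∃ (i : ℕ) (β : Type) (_ : Fintype β) (B : β → Ideal (𝓞 M))
    (j : Ideal (𝓞 M) → β) (x : Ideal (𝓞 M) → M), 0 < i ∧ i ≤ 2 * Units.torsionOrder M ∧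
    (TF f → (∀ u : (𝓞 M)ˣ, (u : 𝓞 M) - 1 ∈ f → Algebra.norm K ((u : 𝓞 M) : M) = 1) → i = 1) ∧
    (∀ j, Cp f (B j) ∧ B j ⊔ Ideal.span {3} = ⊤) ∧
    (∀ I, Cp f I → E f (x I) (I * B (j I)) (Qm ι J M m)) ∧
    ∀ (μ : Type) [Fintype μ] (y : μ → M), (∀ i, Fd ι J 0 (y i)) →
    ∃ Z : (μ → ℂ) → ℕ → (β → ℂ) → ℂ → ℂ, (∀ g k w, Iv ι J f ψ m n y k g → 0 < k →
      DifferentiableOn ℂ (Z g k w) (Hp k) ∧ ∀ s : ℂ,
        2 < (k : ℝ) + 2 * s.re → HasSum (fun I => if Cp f I then i * (w (j I) * xi c l I *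
          hv ι J ψ m n y g (x I) / J (Algebra.norm K (x I)) ^ k * (Ideal.absNorm I : ℂ) ^ (-s))
          else 0) (Z g k w s)) ∧
      ∀ (g g' : μ → ℂ) (k k' : ℕ) (w w' : β → ℂ) (ν : ℂ_[3]) (δ δ' : ℝ), Iv ι J f ψ m n y k g →
        Iv ι J f ψ m n y k' g' → 0 < k → 0 < k' → 0 ≤ δ → 0 ≤ δ' →
        (∀ j, ‖ι (w j)‖ ≤ 1) → (∀ j, ‖ν‖ * ‖ι (w j - w' j)‖ * δ' ≤ δ) →
        N2 ι J m k k' y g g' ν δ → N2 ι J m k' k' y g' g' 0 δ' →
        ‖nv Ωp n k (ι (Z g k w 0)) - ν * nv Ωp n k' (ι (Z g' k' w' 0))‖ ≤ δ / √(dv ι J b)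

theorem two_g {α : Type} {N : α → ℂ_[3]} {X : ℕ → ℂ_[3]} {C : ℝ} (hC : 0 ≤ C)
    (h : ∀ (k k' : ℕ) (ν : ℂ_[3]) (δ : ℝ), 0 < k → 0 < k' →
      (∀ a, ‖N a ^ (k - 1) - ν * N a ^ (k' - 1)‖ ≤ δ) → ‖X k - ν * X k'‖ ≤ C * δ)
    {k k' : ℕ} {g g' ν : ℂ_[3]} {δ : ℝ} (hk : 0 < k) (hk' : 0 < k') (hδ : 0 ≤ δ)
    (hn : ∀ a, ‖g * N a ^ (k - 1) - ν * (g' * N a ^ (k' - 1))‖ ≤ δ) :
    ‖g * X k - ν * (g' * X k')‖ ≤ C * δ := by
  have key : ∀ (k k' : ℕ) (g e : ℂ_[3]), 0 < k → 0 < k' → g ≠ 0 →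
      (∀ a, ‖g * N a ^ (k - 1) - e * N a ^ (k' - 1)‖ ≤ δ) → ‖g * X k - e * X k'‖ ≤ C * δ := by
    intro k k' g e hk hk' g0 hn
    have p := norm_pos_iff.2 g0
    have := h k k' (e / g) (δ / ‖g‖) hk hk' fun a => by
      rw [le_div_iff₀ p, ← norm_mul]
      exact (congrArg _ (by field_simp)).trans_le (hn a)
    rw [← mul_div_assoc, le_div_iff₀ p, ← norm_mul] at this
    exact (congrArg _ (by field_simp)).trans_le this
  by_cases g0 : g = 0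
  · by_cases e0 : ν * g' = 0
    · rw [g0, ← mul_assoc, e0]
      simpa using mul_nonneg hC hδ
    · have := key k' k' (ν * g') 0 hk' hk' e0 fun a => by simpa [g0, mul_assoc] using hn a
      simpa [g0, mul_assoc] using this
  · simpa only [mul_assoc] using key k k' g (ν * g') hk hk' g0 fun a => by
      simpa only [mul_assoc] using hn a

variable {K : Type} [Field K] [NumberField K] {ι : ℂ →+* ℂ_[3]} {J : K →+* ℂ} {Ω : ℝ}
  {M : Type} [Field M] [NumberField M] [Algebra K M] {π : 𝓞 K} {τ : ℕ → K} {ψ : K → ℂ} {ω : ℂ}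

theorem un_nm (hB : Base ι J Ω) (u : (𝓞 M)ˣ) : ‖J (Algebra.norm K ((u : 𝓞 M) : M))‖ = 1 := by
  have _ := fd K M
  have k : ∀ u : (𝓞 M)ˣ, 1 ≤ ‖J (Algebra.norm K ((u : 𝓞 M) : M))‖ := fun u =>
    one_le hB (Algebra.isIntegral_norm K (u : 𝓞 M).isIntegral_coe)
      (Algebra.norm_ne_zero_iff.2 (RingOfIntegers.coe_ne_zero_iff.2 u.ne_zero))
  have e : (((u⁻¹ : (𝓞 M)ˣ) : 𝓞 M) : M) * ((u : 𝓞 M) : M) = 1 :=
    congrArg (fun z : 𝓞 M => (z : M)) u.inv_mul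
  have e' := congrArg (fun z => ‖J (Algebra.norm K z)‖) e
  simp only [map_mul, norm_mul, map_one, norm_one] at e'
  nlinarith [k u, k u⁻¹]

theorem core2 (H : IPL) (hB : Base ι J Ω) {Ωp : ℂ_[3]} {ψ : AddChar K ℂ} (hψ : Ps ι J ψ) {d : ℝ}
    {p : ℕ} {σ : Fin (p + 1) → M →+* ℂ} (hσ : Sg J σ) (U : Subgroup (𝓞 M)ˣ) (ε : Fin p → U)
    (t : 𝓞 M) (φ : M → ℂ) (B : ℝ) (N m : ℕ) (hN : N ≠ 0)
    (hε : ∀ u : U, ∃! e : Fin p → ℤ, u = ∏ j, ε j ^ e j)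
    (hU : ∀ u ∈ U, Algebra.norm K ((u : 𝓞 M) : M) = 1) (hφ : ∀ x, ‖φ x‖ ≤ B)
    (hL : ∀ x, φ x ≠ 0 → Vi ι J (3 ^ m * x) → IsIntegral ℤ (N * x))
    (hg : ∀ x, φ x ≠ 0 → Algebra.trace K M (t * x) ≠ 0)
    (hz : ∀ a : Fin p → U, (∀ j, a j ∈ cb (List.ofFn ε)) → ∃ (e : 𝓞 M) (q : ℕ), MZ φ e q ∧
      ∀ j, Algebra.trace K M ((((a j : (𝓞 M)ˣ) : 𝓞 M) : M) * t * e) = 0)
    {μ : Type} [Fintype μ] (y : μ → M) (hy : ∀ i, Fd ι J 0 (y i))
    (hM : ∀ a : Fin (p + 1) → U, (∀ j, a j ∈ cb (List.ofFn ε)) → ∀ i,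
      Mv ι J Ωp ψ d σ (fun j => (((a j : (𝓞 M)ˣ) : 𝓞 M) : M) * t) φ m (y i))
    (hi : ∀ u ∈ U, ∀ x, φ (((u : 𝓞 M) : M) * x) = φ x)
    {κ : Type} (r : κ → M) (hr : ∀ i, φ (r i) ≠ 0 ∧ Vi ι J (3 ^ m * r i))
    (hj : Function.Injective fun z : κ × U => (((z.2 : (𝓞 M)ˣ) : 𝓞 M) : M) * r z.1)
    (hs : ∀ x, φ x ≠ 0 → Vi ι J (3 ^ m * x) → ∃ i, ∃ u ∈ U, x = ((u : 𝓞 M) : M) * r i) :
    ∃ D : (μ → ℂ) → ℕ → ℂ → ℂ, (∀ g k, Iu ι J U ψ m (p + 1) y g → 0 < k →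
      DifferentiableOn ℂ (D g k) (Hp k) ∧ ∀ s : ℂ, 2 < (k : ℝ) + 2 * s.re →
        HasSum (fun i => φ (r i) * hv ι J ψ m (p + 1) y g (r i) * tm J k s (r i)) (D g k s)) ∧
      ∀ (g g' : μ → ℂ) (k k' : ℕ) (ν : ℂ_[3]) (δ : ℝ), Iu ι J U ψ m (p + 1) y g →
        Iu ι J U ψ m (p + 1) y g' → 0 < k → 0 < k' → 0 ≤ δ → N2 ι J m k k' y g g' ν δ →
        ‖nv Ωp (p + 1) k (ι (D g k 0)) - ν * nv Ωp (p + 1) k' (ι (D g' k' 0))‖ ≤ δ / √d := by
  have hN' : (N : M) ≠ 0 := Nat.cast_ne_zero.2 hN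
  have hNc : (0 : ℝ) < N := Nat.cast_pos.2 (Nat.pos_of_ne_zero hN)
  let ch : U →* (Fin (p + 1) → ℂ) :=
    { toFun := fun u i => σ i ((u : (𝓞 M)ˣ) : 𝓞 M)
      map_one' := by funext i; simp
      map_mul' := fun a b => by funext i; simp }
  let F : 𝓞 M →+ M :=
    { toFun := fun x => (x : M) / N
      map_zero' := by simp
      map_add' := fun a b => by simp [add_div] }
  have hF : Function.Injective F := fun a b e =>
    RingOfIntegers.coe_injective ((div_left_inj' hN').1 e)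
  have hFs : ∀ x : M, IsIntegral ℤ (N * x) → ∃ z, x = F z := fun x k =>
    ⟨⟨N * x, k⟩, (mul_div_cancel_left₀ x hN').symm⟩
  have hFu : ∀ (u : U) (x : 𝓞 M), F (u • x) = (((u : (𝓞 M)ˣ) : 𝓞 M) : M) * F x := fun u x => by
    show ((((u : (𝓞 M)ˣ) : 𝓞 M) * x : 𝓞 M) : M) / N = _ * ((x : M) / N)
    push_cast
    ring
  let em : 𝓞 M →+ (Fin (p + 1) → ℂ) :=
    { toFun := fun x i => σ i (F x)
      map_zero' := by funext i; simp
      map_add' := fun a b => by funext i; simp }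
  set h := fun g => hv ι J ψ m (p + 1) y g with hh
  have hV : ∀ g x, h g x ≠ 0 → Vi ι J (3 ^ m * x) := fun g x k => not_not.1 fun n => k (if_neg n)
  choose r' hr' using fun i => hFs (r i) (hL _ (hr i).1 (hr i).2)
  obtain ⟨η, hη, H⟩ := H p U ch ε (fun u => by
      rw [show ∏ i, ch u i = _ from (hσ.both _).1, hU _ u.2, map_one]) hε (fun R => by
      refine Set.Finite.of_finite_image (f := fun u : U => ((u : (𝓞 M)ˣ) : 𝓞 M))
        ((hσ.fin hB R).subset ?_) (Units.val_injective.comp Subtype.val_injective).injOn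
      rintro _ ⟨u, hu, rfl⟩ i
      exact (norm_le_pi_norm (ch u) i).trans hu)
  have key := fun g (hg' : Iu ι J U ψ m (p + 1) y g) k => H (𝓞 M) em (fun i => σ i t)
    (fun x => φ (F x) * h g (F x))
    (B * ∑ i, ‖g i‖) (1 / N) κ r' k
    (fun a b e => hF ((σ 0).injective (congrFun e 0)))
    (fun u x => by funext i; show σ i (F (u • x)) = σ i _ * σ i _; rw [hFu, map_mul])
    (fun R => (hσ.fin hB (R * N)).subset fun x hx i => by
      have : ‖σ i ((x : M) / N)‖ ≤ R := (norm_le_pi_norm (em x) i).trans hx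
      rwa [map_div₀, map_natCast, norm_div, Complex.norm_natCast, div_le_iff₀ hNc] at this)
    (fun x => by
      rw [norm_mul]
      refine mul_le_mul (hφ _) (hv_bd ψ hψ _ _ _ _ _ N hN fun i => ?_) (norm_nonneg _)
        ((norm_nonneg _).trans (hφ 0))
      have := hy i x
      rwa [pow_zero, ← mul_div_cancel₀ (x : M) hN'] at this)
    (fun u x => by rw [hFu, hi _ u.2 _, show h g _ = h g _ from hg' _ u.2 _]) (by positivity)
    (fun x k => by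
      have k1 := hg _ (left_ne_zero_of_mul k)
      refine ⟨fun i => (map_ne_zero (σ i)).2 fun e : F x = 0 => k1 (by
        rw [e, mul_zero, map_zero]), ?_⟩
      have e : Algebra.trace K M (t * F x) = Algebra.trace K M ((t * x : 𝓞 M) : M) / N := by
        rw [eq_div_iff (Nat.cast_ne_zero.2 hN), mul_comm, ← nsmul_eq_mul, ← map_nsmul,
          nsmul_eq_mul]
        congr 1
        show N * (t * ((x : M) / N)) = _
        push_cast
        field_simp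
      rw [show lf _ (em x) = _ from hσ.lf t (F x), e, map_div₀, map_natCast, norm_div,
        Complex.norm_natCast]
      exact div_le_div_of_nonneg_right (one_le hB (tr_int _) fun k2 => k1 (by
        rw [e, k2, zero_div])) hNc.le)
    (fun a ha => by
      obtain ⟨e, q, k1, k2⟩ := hz a ha
      have e1 : F (N * e) = e := by
        show (((N : 𝓞 M) * e : 𝓞 M) : M) / N = _
        push_cast
        exact mul_div_cancel_left₀ _ hN'
      refine ⟨N * e, q, ⟨k1.1, fun x => ?_⟩, fun j => ?_⟩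
      · have : ∀ s : ℕ, h g (F x + s • (e : M)) = h g (F x) := fun s => by
          simpa using hv_add ψ hψ m (p + 1) y g hy (F x) (s • e)
        simp only [map_add, map_nsmul, e1, this, ← sum_mul, k1.2, zero_mul]
      · have := hσ.lf ((((a j : (𝓞 M)ˣ) : 𝓞 M) : M) * t) e
        rw [k2 j, map_zero] at this
        rw [← this]
        simp only [lf, Pi.mul_apply, map_mul]
        exact sum_congr rfl fun i _ => by
          rw [show em (N * e) i = σ i e from congrArg _ e1]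
          rfl)
    (fun a b e => hj (by
      have := congrArg F e
      simp only [hFu, ← hr'] at this
      exact this))
    (fun x k => by
      obtain ⟨i, u, hu, e⟩ := hs _ (left_ne_zero_of_mul k) (hV _ _ (right_ne_zero_of_mul k))
      exact ⟨i, ⟨u, hu⟩, hF (by rw [hFu, ← hr', e])⟩)
  choose D hD using key
  choose S hS using hM
  let sv : (μ → ℂ) → ℕ → (Fin (p + 1) → U) → ℂ := fun g k a =>
    if ha : ∀ j, a j ∈ cb (List.ofFn ε) then (∑ i, g i * S a ha i k) / 3 ^ (m * (p + 1)) else 0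
  have hc : cyc (List.ofFn ε) ∈ sp (Vx (cb (List.ofFn ε)) (p + 1)) := by
    simpa using cyc_cb (List.ofFn ε)
  have hv0 : ∀ g hg' k (hk : 0 < k), η * (-1) ^ ((p + 1) * (k - 1)) * D g hg' k hk 0 =
      co (sv g k) (cyc (List.ofFn ε)) := fun g hg' k hk => by
    have k0 : Reg (fun x : M => φ x * h g x * co (fun a : Fin (p + 1) → U =>
        ck k (fun j i => σ i ((((a j : (𝓞 M)ˣ) : 𝓞 M) : M) * t)) fun i => σ i x)
        (cyc (List.ofFn ε))) _ := Reg.ext F hF 0 (fun x k => by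
      have k1 := left_ne_zero_of_mul k
      simpa using hFs x (hL x (left_ne_zero_of_mul k1) (hV _ _ (right_ne_zero_of_mul k1))))
      ((hD g hg' k hk).2.2.congr (fun x => by simp only [zero_add, map_mul]; rfl) rfl)
    refine k0.uniq (reg_co _ _ _ (fun a ha => ?_) hc)
    refine ((Reg.sum univ fun i _ => (((hS a ha i).1 k hk).smul (g i))).smul
      ((3 : ℂ) ^ (m * (p + 1)))⁻¹).congr (fun x => ?_) (by simp only [sv, dif_pos ha]; ring)
    simp only [hh, hv]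
    split_ifs
    · simp only [div_eq_mul_inv, sum_mul, mul_sum]
      exact sum_congr rfl fun i _ => by ring
    · simp
  refine ⟨fun g k => if e : Iu ι J U ψ m (p + 1) y g ∧ 0 < k then D g e.1 k e.2 else 0,
    fun g k hg' hk => ?_, fun g g' k k' ν δ h1 h2 hk hk' hδ hn => ?_⟩
  · simp only [dif_pos (And.intro hg' hk)]
    refine ⟨(hD g hg' k hk).1, fun s hs => ((hD g hg' k hk).2.1 s hs).congr_fun fun i => ?_⟩
    rw [show ∏ j, em (r' i) j = _ from (hσ.both _).1, ← hr', tm]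
    simp only [hh]
    ring
  · simp only [dif_pos (And.intro h1 hk), dif_pos (And.intro h2 hk')]
    have e : ∀ g hg' k (hk : 0 < k), nv Ωp (p + 1) k (ι (D g hg' k hk 0)) = ι η *
        ((((k - 1).factorial : ℂ_[3]) / Ωp ^ k) ^ (p + 1) *
          ι (co (sv g k) (cyc (List.ofFn ε)))) := by
      intro g hg' k hk
      have : ι η * ι η = 1 := by rcases hη with rfl | rfl <;> simp
      rw [← hv0 g hg' k hk, nv, map_mul, map_mul, map_pow, map_neg, map_one, mul_div_assoc, mul_pow,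
        ← pow_mul, mul_comm (k - 1)]
      linear_combination (-((-1) ^ ((p + 1) * (k - 1)) *
        (((k - 1).factorial : ℂ_[3]) / Ωp ^ k) ^ (p + 1) * ι (D g hg' k hk 0))) * this
    have e' : ‖ι η‖ = 1 := by rcases hη with rfl | rfl <;> simp
    rw [e, e, mul_left_comm ν, ← mul_sub, norm_mul, e', one_mul, ← mul_assoc ν]
    refine le_co _ _ _ _ (by positivity) (fun a ha => ?_) hc
    have h2 : (0 : ℝ) < ‖(3 : ℂ_[3])‖ ^ (m * (p + 1)) :=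
      pow_pos (norm_pos_iff.2 three_ne_zero) _
    simp only [sv, dif_pos ha, map_div₀, map_sum, map_mul, map_pow, map_ofNat]
    rw [← mul_div_assoc, ← mul_div_assoc, ← sub_div, norm_div, norm_pow, div_le_iff₀ h2, mul_sum,
      mul_sum, ← sum_sub_distrib]
    refine sum_le _ (by positivity) fun i => ?_
    have := two_g (N := fun y' : {y' // Fd ι J m (y' - y i)} => ι (J (Algebra.norm K y'.1)))
      (X := fun k => (((k - 1).factorial : ℂ_[3]) / Ωp ^ k) ^ (p + 1) * ι (S a ha i k))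
      (C := ‖(3 : ℂ_[3])‖ ^ (m * (p + 1)) / √d) (by positivity)
      (fun k k' ν δ hk hk' hn => ((hS a ha i).2 k k' ν δ hk hk' fun _ y' e => hn ⟨y', e⟩).trans_eq
        (by ring)) hk hk' hδ (fun y' => hn i y'.1 y'.2)
    exact (congrArg _ (by ring)).trans_le (this.trans_eq (by ring))

theorem cls2 (H : IPL) (hM : Ms.MSR) (hT : Ms.TFC) (hB : Base ι J Ω) (O : Ms.One ι J Ω π τ ψ ω)
    {e : ℕ} (he : π ∣ 3 ^ e) {p : ℕ} {b : Basis (Fin (p + 1)) K M} (hb : Vb ι J b)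
    {c : Ideal (𝓞 M)} {l : ℕ} (hc : Sm c l) {f : Ideal (𝓞 M)} (hf : f ≠ ⊤) (pf : Pv ι J f)
    (fl : f ⊔ span {(l : 𝓞 M)} = ⊤) {U : Subgroup (𝓞 M)ˣ} {ε : Fin p → U} {i : ℕ}
    {ρ : Fin i → (𝓞 M)ˣ} (u1 : ∀ u : U, ∃! e : Fin p → ℤ, u = ∏ j, ε j ^ e j)
    (u2 : ∀ u ∈ U, Algebra.norm K ((u : 𝓞 M) : M) = 1 ∧ (u : 𝓞 M) - 1 ∈ f)
    (u3 : ∀ t, (ρ t : 𝓞 M) - 1 ∈ f) (u4 : ∀ u : (𝓞 M)ˣ, (u : 𝓞 M) - 1 ∈ f → ∃! t, u / ρ t ∈ U)
    {t : 𝓞 M} (t1 : ∀ x, Lf (3 * l) f (x - 1) → Algebra.trace K M (t * x) ≠ 0)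
    (t2 : ∀ a : Fin (p + 1) → U, (∀ j, a j ∈ cb (List.ofFn ε)) → ∀ j, ∃ d : 𝓞 M, d ∉ c ∧
      ∀ i, i ≠ j → Algebra.trace K M ((((a i : (𝓞 M)ˣ) : 𝓞 M) : M) * t * d) = 0)
    {B : Ideal (𝓞 M)} (b1 : Cp f B) (b2 : Pv ι J B) (b3 : B ⊔ span {(l : 𝓞 M)} = ⊤) {m : ℕ}
    (hQ : Cp f (Qm ι J M m)) {P : Ideal (𝓞 M) → Prop} {x : Ideal (𝓞 M) → M}
    (x1 : ∀ I, P I → E f (x I) (I * B) (Qm ι J M m))
    (x2 : ∀ I x', Cp f I → E f x' (I * B) (Qm ι J M m) → P I)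
    {μ : Type} [Fintype μ] (y : μ → M) (hy : ∀ i, Fd ι J 0 (y i)) :
    ∃ D : (μ → ℂ) → ℕ → ℂ → ℂ, (∀ g k, Iv ι J f (ac O.toAr) m (p + 1) y k g → 0 < k →
      DifferentiableOn ℂ (D g k) (Hp k) ∧ ∀ s : ℂ, 2 < (k : ℝ) + 2 * s.re →
        HasSum (fun I => if P I then i * (xi c l I *
          hv ι J (ac O.toAr) m (p + 1) y g (x I) * tm J k s (x I)) else 0) (D g k s)) ∧
      ∀ (g g' : μ → ℂ) (k k' : ℕ) (ν : ℂ_[3]) (δ : ℝ), Iv ι J f (ac O.toAr) m (p + 1) y k g →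
        Iv ι J f (ac O.toAr) m (p + 1) y k' g' → 0 < k → 0 < k' → 0 ≤ δ →
        N2 ι J m k k' y g g' ν δ →
        ‖nv (ι ω) (p + 1) k (ι (D g k 0)) - ν * nv (ι ω) (p + 1) k' (ι (D g' k' 0))‖ ≤
          δ / √(dv ι J b) := by
  have A := O.toAr
  obtain ⟨σ, hσ⟩ := ex_sg (M := M) J (by simpa using finrank_eq_card_basis b : _ = p + 1)
  obtain ⟨⟨N, N1, N2⟩, φ, tf, φ1, φB, φE, φL, φI, φU⟩ := tst hT A he hc hf pf fl b1 b2 b3 hQ
  have lf : ∀ u ∈ U, ∀ x, φ x ≠ 0 → Lf (3 * l) f (((u : 𝓞 M) : M) * x - 1) := fun u hu x k =>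
    φL _ (by rwa [φU u (u2 u hu).2])
  obtain ⟨N', g1, g2⟩ := good hc.1 he N1 N2 t1
  obtain ⟨N₀, -, -, -, n4⟩ := tf.lev
  let r : {I // P I} × Fin i → M := fun z => ((ρ z.2 : 𝓞 M) : M) * x z.1
  have hr : ∀ z, E f (r z) (z.1 * B) (Qm ι J M m) := fun z => E_smul (x1 _ z.1.2) _ (u3 _)
  obtain ⟨D, D1, D2⟩ := core2 (Ωp := ι ω) (ψ := ac A) (d := dv ι J b) H hB A.ker hσ U ε t φ (1 + l)
    (3 ^ m) m (by simp) u1 (fun u k => (u2 u k).1) φB
    (fun x k k' => by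
      obtain ⟨I, -, e⟩ := φI x k k'
      simpa using (φE e).2)
    (fun x k => t1 x (φL x k))
    (fun a ha => by
      obtain ⟨d, d1, d2⟩ := t2 (Fin.cons 1 a) (Fin.cases (cb_one _) ha) 0
      refine ⟨N₀ * d, l, ⟨hc.1.pos, fun x => ?_⟩, fun j => ?_⟩
      · simpa [mul_assoc] using n4 x d d1
      · have := d2 j.succ (Fin.succ_ne_zero j)
        rw [Fin.cons_succ] at this
        rw [show (((N₀ : 𝓞 M) * d : 𝓞 M) : M) = N₀ • (d : M) by simp, mul_smul_comm, map_nsmul, this,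
          smul_zero])
    y hy
    (fun a ha i => mv_of hM O hb hσ hc tf (.inr (t2 a ha)) ⟨N', g1, fun j x k => by
      have := g2 _ (lf _ (a j).2 x k)
      rwa [← mul_assoc, mul_comm (t : M)] at this⟩ φ1 m (hy i))
    (fun u hu x => φU u (u2 u hu).2 x)
    r (fun z => ⟨by rw [(φE (hr z)).1]; exact xi_ne _ hc.1.ne_one _, 1, by simp, by
      simpa using (φE (hr z)).2⟩)
    (by
      rintro ⟨⟨⟨I, hI⟩, s⟩, u⟩ ⟨⟨⟨I', hI'⟩, s'⟩, u'⟩ k
      have k1 := E_smul (hr (⟨I, hI⟩, s)) u (u2 _ u.2).2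
      have k2 := E_smul (hr (⟨I', hI'⟩, s')) u' (u2 _ u'.2).2
      rw [show _ * r _ = _ * r _ from k] at k1
      obtain rfl : I = I' := mul_right_cancel₀ b1.1 (E_uniq k1 k2)
      have k3 : (u : (𝓞 M)ˣ) * ρ s = u' * ρ s' := Units.val_injective (RingOfIntegers.coe_injective
        (mul_right_cancel₀ (E_ne (x1 I hI)) (by simpa [r, mul_assoc] using k)))
      obtain rfl : s = s' := (u4 (u * ρ s) (one_mul' (u2 _ u.2).2 (u3 s))).unique (by simp)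
        (by simp [k3])
      obtain rfl : u = u' := Subtype.ext (mul_right_cancel k3)
      rfl)
    (fun x' k k' => by
      obtain ⟨I, c1, e⟩ := φI x' k k'
      obtain ⟨u, v1, rfl⟩ := E_unit hQ.1 (x1 I (x2 I x' c1 e)) e
      obtain ⟨s, v2, -⟩ := u4 u v1
      refine ⟨(⟨I, x2 I _ c1 e⟩, s), _, v2, ?_⟩
      simp only [r, ← mul_assoc, ← map_mul, ← Units.val_mul, div_mul_cancel])
  have iu : ∀ {g k}, Iv ι J f (ac A) m (p + 1) y k g → Iu ι J U (ac A) m (p + 1) y g :=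
    fun h u hu x => by rw [h u (u2 u hu).2, (u2 u hu).1, map_one, one_pow, one_mul]
  refine ⟨D, fun g k hi hk => ⟨(D1 g k (iu hi) hk).1, fun s hs => ?_⟩,
    fun g g' k k' ν δ h1 h2 => D2 g g' k k' ν δ (iu h1) (iu h2)⟩
  have := ((D1 g k (iu hi) hk).2 s hs).prod_fiberwise (g := fun I : {I // P I} => i * (xi c l I *
      hv ι J (ac A) m (p + 1) y g (x I) * tm J k s (x I))) fun I => by
    have := hasSum_fintype fun _ : Fin i =>
      xi c l I * hv ι J (ac A) m (p + 1) y g (x I) * tm J k s (x I)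
    rw [sum_const, card_univ, Fintype.card_fin, nsmul_eq_mul] at this
    refine this.congr_fun fun a => ?_
    have k1 := un_nm hB (ρ a)
    have k2 : J (Algebra.norm K ((ρ a : 𝓞 M) : M)) ^ k ≠ 0 :=
      pow_ne_zero _ (norm_ne_zero_iff.1 (k1 ▸ one_ne_zero))
    rw [(φE (hr (I, a))).1]
    simp only [r, hi _ (u3 a), tm, map_mul, norm_mul, mul_pow, k1, one_mul]
    rw [mul_comm (J _ ^ k) (J _ ^ k), ← div_div, mul_right_comm (xi c l I), mul_assoc,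
      ← mul_assoc (_ / _), div_mul_cancel₀ _ k2]
    ring
  exact sub_hs (fun I => i * (xi c l I * hv ι J (ac A) m (p + 1) y g (x I) * tm J k s (x I))) this

theorem idl2 (H : IPL) (hA : Ms.BAS) (hM : Ms.MSR) (hT : Ms.TFC) (unt : UNT) (ray : RAY) (vtx : VTX)
    (val : VAL) (vaq : VAQ) : IDL2 := by
  intro K _ _ ι J Ω hB
  obtain ⟨π, τ, ψ, ω, O⟩ := hA K ι J Ω hB hB.sur
  refine ⟨ι ω, ac O.toAr, O.om, O.ker, fun M _ _ _ n b hb c l hc f pf fl ⟨w, w1, w2, w3⟩ m => ?_⟩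
  obtain ⟨e, he⟩ := ((val K ι J Ω hB).2.1 π O.cop).2
  have hn : finrank K M = n := by simpa using finrank_eq_card_basis b
  have _ := fd K M
  obtain ⟨p, rfl⟩ : ∃ p, n = p + 1 := ⟨n - 1, by have := finrank_pos (R := K) (M := M); omega⟩
  have hf : f ≠ ⊤ := fun k => w1.ne_top (top_le_iff.1 (k ▸ w2))
  have f0 : f ≠ ⊥ := by
    obtain ⟨s, s1, s2⟩ := pf
    rintro rfl
    have : (algebraMap K M s) = 0 := congrArg (algebraMap (𝓞 M) M) (mem_bot.1 s2)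
    rw [(map_eq_zero _).1 this] at s1
    simp at s1
  have lc : (l : 𝓞 M) ∈ c := hc.2.2.1 ▸ absNorm_mem c
  have fc : f ⊔ c = ⊤ :=
    top_le_iff.1 (fl.ge.trans (sup_le_sup_left ((span_singleton_le_iff_mem _).2 lc) _))
  obtain ⟨q1, -, q3, -⟩ := vaq K ι J Ω hB M
  have hQ : Cp f (Qm ι J M m) := ⟨fun k => pow_ne_zero m (by norm_num) (mem_bot.1 (k ▸ two_mem m)), by
    rw [q3]
    exact isCoprime_iff_sup_eq.1 (isCoprime_iff_sup_eq.2 ((q1 f).1 pf)).symm.pow_left⟩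
  obtain ⟨U, ε, i, ρ, u1, u2, i1, i2, i3, u3, u4⟩ := unt K ι J Ω hB M p hn f f0
  obtain ⟨β, _, B, b1, b2⟩ := ray M f (span {3 * (l : 𝓞 M)}) f0 (by simpa using hc.1.ne_zero)
  have b3 : ∀ j, B j ⊔ span {3} = ⊤ ∧ B j ⊔ span {(l : 𝓞 M)} = ⊤ := fun j =>
    ⟨top_le_iff.1 ((b1 j).2.ge.trans (sup_le_sup_left
      (span_singleton_le_span_singleton.2 (dvd_mul_right _ _)) _)),
    top_le_iff.1 ((b1 j).2.ge.trans (sup_le_sup_left
      (span_singleton_le_span_singleton.2 (dvd_mul_left _ _)) _))⟩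
  have b4 : ∀ j, Pv ι J (B j) := fun j => (q1 _).2 (top_le_iff.1 ((b3 j).1.ge.trans
    (sup_le_sup_left ((span_singleton_le_iff_mem _).2 (by simpa using two_mem (M := M) 1)) _)))
  obtain ⟨t, t1, t2⟩ := vtx K M (p + 1) hn c l hc f ⊤ w (3 * l) f0 fc ⟨top_ne_bot, top_sup_eq _⟩ w1 w2
    (fun k => (w1.isPrime.mem_or_mem (by simpa using k)).elim w3 fun k => w1.ne_top (top_le_iff.1
      (fl.ge.trans (sup_le w2 ((span_singleton_le_iff_mem _).2 k))))) _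
    ((cb_fin (List.ofFn ε)).image fun u : U => (((u : (𝓞 M)ˣ) : 𝓞 M) : M))
  obtain ⟨j₀, -⟩ := b2 _ _ hQ hQ
  have : ∀ I, ∃ (j : β) (x : M), Cp f I → E f x (I * B j) (Qm ι J M m) := fun I => by
    by_cases k : Cp f I
    · obtain ⟨j, ⟨x, a⟩, -⟩ := b2 _ I hQ k
      exact ⟨j, x, fun _ => a⟩
    · exact ⟨j₀, 0, fun a => absurd a k⟩
  choose j x hx using this
  refine ⟨i, β, inferInstance, B, j, x, i1, i2, i3, fun j => ⟨(b1 j).1, (b3 j).1⟩, hx,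
    fun μ _ y hy => ?_⟩
  choose D D1 D2 using fun a : β => cls2 H hM hT hB O he hb hc hf pf fl u1 u2 u3 u4 t1
    (fun a ha j => by
      obtain ⟨d, -, k⟩ := t2 _ (fun j => ⟨a j, ha j, rfl⟩) j
      exact ⟨d, k⟩) (b1 a).1 (b4 a) (b3 a).2 hQ (P := fun I => Cp f I ∧ j I = a) (x := x)
    (fun I k => k.2 ▸ hx I k.1)
    (fun I x' k k' => ⟨k, (b2 _ I hQ k).unique ⟨_, hx I k⟩ ⟨_, k'⟩⟩) y hy
  let R : β → ℝ := fun a => absNorm (B a) / absNorm (Qm ι J M m)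
  have n0 : ∀ I : Ideal (𝓞 M), I ≠ ⊥ → (0 : ℝ) < absNorm I := fun I k =>
    Nat.cast_pos.2 (Nat.pos_of_ne_zero fun e => k (absNorm_eq_zero_iff.1 e))
  have R0 : ∀ a, 0 < R a := fun a => div_pos (n0 _ (b1 a).1.1) (n0 _ hQ.1)
  have R1 : ∀ a, ((R a : ℝ) : ℂ) ≠ 0 := fun a => Complex.ofReal_ne_zero.2 (R0 a).ne'
  refine ⟨fun g k w s => ∑ a, w a * (R a : ℂ) ^ s * D a g k s,
    fun g k w hi hk => ⟨?_, fun s hs => ?_⟩,
    fun g g' k k' w w' ν δ δ' v1 v2 hk hk' h0 h0' hw hw' n1 n2 => ?_⟩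
  · exact DifferentiableOn.fun_sum fun a _ => (((differentiable_id.const_cpow
      (.inl (R1 a))).const_mul _).differentiableOn).mul (D1 a g k hi hk).1
  · refine (hasSum_sum fun a _ => ((D1 a g k hi hk).2 s hs).mul_left _).congr_fun fun I => ?_
    by_cases c1 : Cp f I
    · have e1 : ‖J (Algebra.norm K (x I))‖ ^ 2 = absNorm I * R (j I) := by
        have := E_norm hB (hx I c1)
        rw [map_mul, Nat.cast_mul] at this
        rw [← mul_div_assoc, this, mul_div_cancel_right₀ _ (n0 _ hQ.1).ne']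
      have e2 := Complex.cpow_ne_zero_iff.2 (.inl (R1 (j I)) : _ ∨ s = 0)
      rw [sum_eq_single (j I) (fun a _ k => by simp [k.symm]) (by simp), if_pos c1,
        if_pos ⟨c1, rfl⟩, tm, e1, Complex.ofReal_mul,
        Complex.mul_cpow_ofReal_nonneg (Nat.cast_nonneg _) (R0 _).le, Complex.cpow_neg (R _),
        Complex.ofReal_natCast]
      field_simp
    · simp [c1]
  · simp only [Complex.cpow_zero, mul_one, nv, map_sum, map_mul, mul_sum, ← sum_sub_distrib]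
    refine sum_le _ (by positivity) fun a => ?_
    have k1 := mul_le_mul (hw a) (D2 a g g' k k' ν δ v1 v2 hk hk' h0 n1) (norm_nonneg _) zero_le_one
    have k2 := mul_le_mul_of_nonneg_left (D2 a g' g' k' k' 0 δ' v2 v2 hk' hk' h0' n2)
      (mul_nonneg (norm_nonneg ν) (norm_nonneg (ι (w a - w' a))))
    rw [← mul_div_assoc] at k2
    replace k2 := k2.trans (div_le_div_of_nonneg_right (hw' a) (Real.sqrt_nonneg _))
    rw [← norm_mul, one_mul] at k1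
    rw [← norm_mul, ← norm_mul] at k2
    refine (congrArg _ ?_).trans_le ((IsUltrametricDist.norm_add_le_max _ _).trans (max_le k1 k2))
    simp only [nv, map_sub]
    ring

theorem idl20 (hA : Ms.BAS) (hM : Ms.MSR) (hT : Ms.TFC) : IDL2 :=
  idl2 P004C.An.ipl hA hM hT unt ray vtx val vaq0

end Vale.Agent.P014Y.C.As
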