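import Mathlib.RingTheory.DedekindDomain.Ideal.Lemmas
import Mathlib.RingTheory.RootsOfUnity.Complex
import Mathlib.RingTheory.Ideal.Norm.AbsNorm
import Mathlib.Algebra.CharP.Lemmas
import Mathlib.Algebra.Order.Ring.IsNonarchimedean

/-!
# P014 Y, C, block AS: Gauss sums of primitive characters, sizes at the prime over three
-/

open Finset
open scoped Classical ComplexConjugate

noncomputable section

namespace Vale.Agent.P014Y.C.As

/-- a primitive character modulo `F` with values of order dividing `2 * 3 ^ j` -/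
structure Lc {R : Type} [CommRing R] (F : Ideal R) (j : ℕ) (ω : R → ℂ) : Prop where
  one : ω 1 = 1
  mul : ∀ x y, ω (x * y) = ω x * ω y
  per : ∀ x y, x - y ∈ F → ω x = ω y
  zero : ∀ x, ω x = 0 ↔ Ideal.span {x} ⊔ F ≠ ⊤
  rt : ∀ x, ω x = 0 ∨ ω x ^ (2 * 3 ^ j) = 1
  prim : ∀ P F' : Ideal R, P.IsMaximal → F = P * F' → ∃ x, x - 1 ∈ F' ∧ x ∉ P ∧ ω x ≠ 1

namespace Ga

section

variable {V : AbsoluteValue ℂ ℝ} {a : ℕ}

/-- the ring of the roots of unity of order dividing `3 ^ a` -/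
def Zr (a : ℕ) : Subring ℂ := Subring.closure {z | z ^ 3 ^ a = 1}

theorem v_root {z : ℂ} {n : ℕ} (hn : n ≠ 0) (h : z ^ n = 1) : V z = 1 :=
  (pow_eq_one_iff_of_nonneg (V.nonneg _) hn).1 (by rw [← map_pow, h, map_one])

theorem zr_root {z : ℂ} (h : z ^ (2 * 3 ^ a) = 1) : z ∈ Zr a := by
  rw [pow_mul', sq_eq_one_iff] at h
  refine h.elim (fun e => Subring.subset_closure e) fun e => neg_mem_iff.1 (Subring.subset_closure ?_)
  show _ ^ _ = 1
  rw [Odd.neg_pow (Odd.pow (by decide)), e, neg_neg]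

theorem zr_le (hV : IsNonarchimedean V) {z : ℂ} (h : z ∈ Zr a) : V z ≤ 1 ∧ conj z ∈ Zr a := by
  induction h using Subring.closure_induction with
  | mem x k => exact ⟨(v_root (by positivity) k).le, Subring.subset_closure (by
      show conj x ^ _ = 1
      rw [← map_pow, k.out, map_one])⟩
  | zero => simp
  | one => simp
  | add x y _ _ p q => exact ⟨(hV x y).trans (max_le p.1 q.1), map_add conj x y ▸ add_mem p.2 q.2⟩
  | neg x _ p => exact ⟨V.map_neg x ▸ p.1, map_neg conj x ▸ neg_mem p.2⟩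
  | mul x y _ _ p q => exact ⟨V.map_mul x y ▸ mul_le_one₀ p.1 (V.nonneg _) q.1,
      map_mul conj x y ▸ mul_mem p.2 q.2⟩

theorem v_int (hV : IsNonarchimedean V) (h3 : V 3 < 1) {k : ℤ} (h : ¬ 3 ∣ k) : V k = 1 := by
  obtain ⟨x, y, e⟩ := (Int.prime_three.coprime_iff_not_dvd).2 h
  refine le_antisymm hV.apply_intCast_le_one (not_lt.1 fun l => ?_)
  have e' : (x : ℂ) * 3 + y * k = 1 := by exact_mod_cast congrArg (Int.cast : ℤ → ℂ) e
  have := hV ((x : ℂ) * 3) (y * k)
  rw [e', map_one, map_mul, map_mul] at this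
  exact this.not_gt (max_lt ((mul_le_of_le_one_left (V.nonneg _) hV.apply_intCast_le_one).trans_lt h3)
    ((mul_le_of_le_one_left (V.nonneg _) hV.apply_intCast_le_one).trans_lt l))

/-- **there is one prime over three** -/
theorem v_conj (hV : IsNonarchimedean V) (h3 : V 3 < 1) {z : ℂ} (h : z ∈ Zr a) :
    V (conj z) = V z := by
  wlog a0 : ∃ b, a = b + 1 generalizing a
  · refine this (a := a + 1) (Subring.closure_mono (fun x k => ?_) h) ⟨a, rfl⟩
    show x ^ _ = 1
    rw [pow_succ, pow_mul, k.out, one_pow]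
  obtain ⟨a, rfl⟩ := a0
  have n0 : 3 ^ (a + 1) ≠ 0 := by positivity
  have := NeZero.mk n0
  obtain ⟨ζ, hζ⟩ : ∃ ζ : ℂ, IsPrimitiveRoot ζ (3 ^ (a + 1)) := ⟨_, Complex.isPrimitiveRoot_exp _ n0⟩
  have zm : ζ ∈ Zr (a + 1) := Subring.subset_closure hζ.pow_eq_one
  have pw : ∀ i : ℕ, ∃ w ∈ Zr (a + 1), ζ ^ i = 1 + (ζ - 1) * w := fun i =>
    ⟨∑ t ∈ range i, ζ ^ t, sum_mem fun t _ => pow_mem zm t, by rw [mul_geom_sum]; ring⟩
  have dec : ∀ x ∈ Zr (a + 1), ∃ k : ℤ, ∃ w ∈ Zr (a + 1), x = k + (ζ - 1) * w := fun x hx => by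
    induction hx using Subring.closure_induction with
    | mem x k =>
      obtain ⟨i, -, rfl⟩ := hζ.eq_pow_of_pow_eq_one k
      exact ⟨1, by simpa using pw i⟩
    | zero => exact ⟨0, 0, zero_mem _, by simp⟩
    | one => exact ⟨1, 0, zero_mem _, by simp⟩
    | add x y _ _ p q =>
      obtain ⟨k, w, m, rfl⟩ := p
      obtain ⟨k', w', m', rfl⟩ := q
      exact ⟨k + k', w + w', add_mem m m', by push_cast; ring⟩
    | neg x _ p =>
      obtain ⟨k, w, m, rfl⟩ := p
      exact ⟨-k, -w, neg_mem m, by push_cast; ring⟩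
    | mul x y _ _ p q =>
      obtain ⟨k, w, m, rfl⟩ := p
      obtain ⟨k', w', m', rfl⟩ := q
      exact ⟨k * k', k * w' + k' * w + (ζ - 1) * w * w', add_mem (add_mem
        (mul_mem (intCast_mem _ _) m') (mul_mem (intCast_mem _ _) m))
        (mul_mem (mul_mem (sub_mem zm (one_mem _)) m) m'), by push_cast; ring⟩
  obtain ⟨w3, m3, e3⟩ : ∃ w ∈ Zr (a + 1), (3 : ℂ) = (ζ - 1) * w := by
    have g := (hζ.pow (by positivity) (pow_succ 3 a)).geom_sum_eq_zero (by norm_num)
    obtain ⟨u, mu, eu⟩ := pw (3 ^ a)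
    obtain ⟨u', mu', eu'⟩ := pw (3 ^ a * 2)
    simp only [sum_range_succ, range_zero, sum_empty, ← pow_mul] at g
    exact ⟨-u - u', sub_mem (neg_mem mu) mu', by linear_combination g - eu - eu'⟩
  have z1 : V ζ = 1 := v_root n0 hζ.pow_eq_one
  have z0 : ζ ≠ 0 := hζ.ne_zero n0
  have p0 : 0 < V (ζ - 1) := V.pos (sub_ne_zero.2 (hζ.ne_one (Nat.one_lt_pow a.succ_ne_zero
    (by norm_num))))
  have p1 : V (ζ - 1) < 1 := by
    obtain ⟨r, e⟩ := exists_add_pow_prime_pow_eq Nat.prime_three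
      (⟨ζ - 1, sub_mem zm (one_mem _)⟩ : Zr (a + 1)) 1 (a + 1)
    have e' := congrArg Subtype.val e
    push_cast at e'
    rw [sub_add_cancel, hζ.pow_eq_one] at e'
    refine lt_of_pow_lt_pow_left₀ (3 ^ (a + 1)) zero_le_one ?_
    rw [← map_pow, show (ζ - 1) ^ 3 ^ (a + 1) = -(3 * ((ζ - 1) * r)) by
      rw [one_pow, show ((3 : Zr (a + 1)) : ℂ) = 3 from rfl] at e'
      linear_combination -e', V.map_neg, map_mul, one_pow]
    exact (mul_le_of_le_one_right (V.nonneg _)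
      (zr_le hV (mul_mem (sub_mem zm (one_mem _)) r.2)).1).trans_lt h3
  have pc : V (conj (ζ - 1)) = V (ζ - 1) := by
    rw [map_sub, map_one, ← Complex.inv_eq_conj (Complex.norm_eq_one_of_pow_eq_one hζ.pow_eq_one n0),
      show ζ⁻¹ - 1 = -(ζ⁻¹ * (ζ - 1)) by field_simp; ring, V.map_neg, map_mul, map_inv₀, z1, inv_one,
      one_mul]
  have un : ∀ (k : ℤ) (x y : ℂ), ¬ 3 ∣ k → V x < 1 → y ∈ Zr (a + 1) → V (k + x * y) = 1 :=
    fun k x y hk hx hy => by
      rw [hV.add_eq_left_of_lt, v_int hV h3 hk]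
      rw [v_int hV h3 hk, map_mul]
      exact (mul_le_of_le_one_right (V.nonneg _) (zr_le hV hy).1).trans_lt hx
  have key : ∀ (N : ℕ) (x : ℂ), x ∈ Zr (a + 1) → V (ζ - 1) ^ N ≤ V x → V (conj x) = V x := by
    intro N
    induction N using Nat.strong_induction_on with
    | _ N ih =>
    intro x hx l
    obtain ⟨k, w, m, rfl⟩ := dec x hx
    by_cases d : 3 ∣ k
    · obtain ⟨k, rfl⟩ := d
      have m' : w3 * k + w ∈ Zr (a + 1) := add_mem (mul_mem m3 (intCast_mem _ _)) m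
      rw [show ((3 * k : ℤ) : ℂ) + (ζ - 1) * w = (ζ - 1) * (w3 * k + w) by
        push_cast; rw [e3]; ring] at l ⊢
      rw [map_mul] at l
      rcases N with _ | N
      · exact absurd ((mul_le_of_le_one_right p0.le (zr_le hV m').1).trans_lt p1)
          (by simpa using l)
      · rw [map_mul, map_mul, map_mul, pc, ih N N.lt_succ_self _ m'
          (le_of_mul_le_mul_left (pow_succ' (V (ζ - 1)) N ▸ l) p0)]
    · rw [un k _ _ d p1 m, map_add, map_mul, map_intCast, un k _ _ d (pc ▸ p1) (zr_le hV m).2]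
  rcases eq_or_ne z 0 with rfl | n
  · simp
  · obtain ⟨N, l⟩ := exists_pow_lt_of_lt_one (V.pos n) p1
    exact key N z h l.le

end

variable {R : Type} [CommRing R] {Q F : Ideal R} {j : ℕ} {ω l : R → ℂ}

/-- sums over the residues -/
def Sf (F : Ideal R) [Fintype (R ⧸ F)] (H : R → ℂ) : ℂ := ∑ s : R ⧸ F, H s.out

/-- periodic -/
def Pf (F : Ideal R) (H : R → ℂ) : Prop := ∀ x y, x - y ∈ F → H x = H y

/-- a primitive additive character -/
structure Lam (F : Ideal R) (l : R → ℂ) : Prop where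
  add : ∀ x y, l (x + y) = l x * l y
  one : ∀ x ∈ F, l x = 1
  prim : ∀ t, (∀ y, l (y * t) = 1) → t ∈ F

theorem pf_of (ad : ∀ x y, l (x + y) = l x * l y) (o : ∀ x ∈ F, l x = 1) : Pf F l := fun x y k => by
  rw [← sub_add_cancel x y, ad, o _ k, one_mul]

theorem Lam.pf (A : Lam F l) : Pf F l := pf_of A.add A.one

theorem Lam.pow (A : Lam F l) (n : ℕ) (x : R) : l x ^ n = l (n * x) := by
  induction n with
  | zero => simp [A.one]
  | succ n ih => rw [pow_succ, ih, ← A.add, Nat.cast_succ, add_one_mul]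

theorem ne_iff (h : Lc F j ω) {x : R} : ω x ≠ 0 ↔ ∃ y, x * y - 1 ∈ F := by
  rw [Ne, h.zero, not_not, Ideal.eq_top_iff_one, Submodule.mem_sup]
  constructor
  · rintro ⟨a, ha, b, hb, e⟩
    obtain ⟨y, rfl⟩ := Ideal.mem_span_singleton.1 ha
    exact ⟨y, by rw [← e]; simpa using hb⟩
  · rintro ⟨y, e⟩
    exact ⟨x * y, Ideal.mem_span_singleton.2 ⟨y, rfl⟩, _, F.neg_mem e, by ring⟩

theorem cj_inv (h : Lc F j ω) (x : R) : conj (ω x)⁻¹ = ω x := by
  rcases h.rt x with e | e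
  · simp [e]
  · rw [← Complex.inv_eq_conj (Complex.norm_eq_one_of_pow_eq_one (by rw [inv_pow, e, inv_one])
      (show 2 * 3 ^ j ≠ 0 by positivity)), inv_inv]

theorem out_mk (x : R) : (Ideal.Quotient.mk F x).out - x ∈ F :=
  Ideal.Quotient.eq.1 (Ideal.Quotient.mk_out _)

variable [Fintype (R ⧸ F)]

theorem Sf_aff {H : R → ℂ} (h : Pf F H) {u v : R} (e : u * v - 1 ∈ F) (t : R) :
    Sf F (fun x => H (u * x + t)) = Sf F H := by
  have e1 : Ideal.Quotient.mk F u * Ideal.Quotient.mk F v = 1 :=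
    (Ideal.Quotient.eq (x := u * v) (y := 1)).2 e
  refine Fintype.sum_equiv ((Units.mkOfMulEqOne _ _ e1).mulLeft.trans
    (Equiv.addRight (Ideal.Quotient.mk F t))) _ _ fun s => h _ _ (Ideal.Quotient.eq.1 ?_)
  simp [Ideal.Quotient.mk_out]

/-- change of the modulus -/
theorem Sf_le [Fintype (R ⧸ Q)] (le : Q ≤ F) {H : R → ℂ} (h : Pf F H) :
    (Nat.card (R ⧸ F) : ℂ) * Sf Q H = Nat.card (R ⧸ Q) * Sf F H := by
  let f := (Ideal.Quotient.factor le).toAddMonoidHom
  have s : Function.Surjective f := Ideal.Quotient.factor_surjective le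
  have k : ∀ G : R ⧸ F → ℂ, ∑ a, G (f a) = #{a | f a = 0} * ∑ b, G b := fun G => by
    rw [← sum_fiberwise univ f, mul_sum]
    refine sum_congr rfl fun b _ => ?_
    rw [sum_congr rfl fun a ha => congrArg G (mem_filter.1 ha).2, sum_const, nsmul_eq_mul,
      AddMonoidHom.card_fiber_eq_of_mem_range f (s b) (s 0)]
  have k1 := k fun _ => 1
  simp only [sum_const, card_univ, nsmul_eq_mul, mul_one] at k1
  rw [Nat.card_eq_fintype_card, Nat.card_eq_fintype_card, k1, Sf, Sf, mul_right_comm, ← k, mul_comm]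
  congr 1
  refine sum_congr rfl fun a _ => h _ _ (Ideal.Quotient.eq.1 ?_)
  rw [Ideal.Quotient.mk_out, ← Ideal.Quotient.factor_mk le, Ideal.Quotient.mk_out]
  rfl

theorem Lam.orth (A : Lam F l) (t : R) :
    Sf F (fun x => l (x * t)) = if t ∈ F then (Nat.card (R ⧸ F) : ℂ) else 0 := by
  split_ifs with k
  · simp [Sf, A.one _ (F.mul_mem_left _ k)]
  · obtain ⟨y, hy⟩ := not_forall.1 (mt (A.prim t) k)
    have := Sf_aff (F := F) (H := fun x => l (x * t)) (fun a b e => A.pf _ _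
      (by rw [← sub_mul]; exact F.mul_mem_right _ e)) (u := 1) (v := 1) (by simp) y
    simp only [one_mul, add_mul, A.add, Sf, ← Finset.sum_mul] at this
    exact (mul_right_eq_self₀.1 this).resolve_left hy

/-- the Gauss sum -/
def gs (F : Ideal R) [Fintype (R ⧸ F)] (ω l : R → ℂ) (r : R) : ℂ :=
  Sf F fun x => (ω x)⁻¹ * l (r * x)

variable (h : Lc F j ω) (A : Lam F l)
include h A

theorem gs_mul {u : R} (k : ω u ≠ 0) (r : R) : gs F ω l (r * u) = ω u * gs F ω l r := by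
  obtain ⟨v, hv⟩ := (ne_iff h).1 k
  rw [gs, gs, ← Sf_aff (H := fun x => (ω x)⁻¹ * l (r * x)) (fun x y e => by
    beta_reduce
    rw [h.per x y e, A.pf _ (r * y) (by rw [← mul_sub]; exact F.mul_mem_left _ e)]) hv 0]
  simp only [Sf, Finset.mul_sum, add_zero, h.mul, mul_assoc, mul_inv, mul_inv_cancel_left₀ k]

theorem gs_zero {P F' : Ideal R} (m : P.IsMaximal) (e : F = P * F') {r : R} (k : r ∈ P) :
    gs F ω l r = 0 := by
  obtain ⟨x, a, b, d⟩ := h.prim P F' m e
  obtain ⟨y, p, hp, q⟩ := m.exists_inv b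
  have n := gs_mul h A (u := x) ((ne_iff h).2 ⟨y + p, by
    convert e ▸ Ideal.mul_mem_mul hp a using 1; linear_combination q⟩) r
  rw [show gs F ω l (r * x) = gs F ω l r from Finset.sum_congr rfl fun s _ => by
    beta_reduce
    rw [A.pf _ (r * s.out) (by
      convert F.mul_mem_right s.out (e ▸ Ideal.mul_mem_mul k a) using 1; ring)]] at n
  exact (mul_left_eq_self₀.1 n.symm).resolve_left d

variable [IsDedekindDomain R]

theorem gs_eq (r : R) : gs F ω l r = ω r * gs F ω l 1 := by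
  by_cases k : ω r = 0
  · obtain ⟨P, m, le⟩ := Ideal.exists_le_maximal _ ((h.zero r).1 k)
    obtain ⟨F', e⟩ := Ideal.dvd_iff_le.2 (le_sup_right.trans le)
    rw [k, gs_zero h A m e (le (Ideal.mem_sup_left (Ideal.mem_span_singleton_self r))), zero_mul]
  · rw [← gs_mul h A k 1, one_mul]

theorem gs_norm {n : ℕ} (n0 : n ≠ 0) (hn : (n : R) ∈ F) :
    gs F ω l 1 * conj (gs F ω l 1) = Nat.card (R ⧸ F) := by
  have c : ∀ x, conj (l x) = l (-x) := fun x => by
    have e := A.add (-x) x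
    rw [neg_add_cancel, A.one 0 F.zero_mem] at e
    rw [← Complex.inv_eq_conj (Complex.norm_eq_one_of_pow_eq_one
      ((A.pow n x).trans (A.one _ (F.mul_mem_right _ hn))) n0), eq_inv_of_mul_eq_one_left e.symm]
  have e : gs F ω l 1 * conj (gs F ω l 1) =
      ∑ s : R ⧸ F, (ω s.out)⁻¹ * Sf F fun x => l (x * (s.out - 1)) := by
    have e0 : conj (gs F ω l 1) = ∑ r : R ⧸ F, ω r.out * l (-r.out) := by
      simp only [gs, Sf, map_sum, map_mul, c, one_mul, cj_inv h]
    simp only [e0, Sf, Finset.mul_sum]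
    rw [Finset.sum_comm]
    refine Finset.sum_congr rfl fun r _ => ?_
    rw [← mul_assoc, mul_comm (gs _ _ _ _), ← gs_eq h A, gs, Sf, Finset.sum_mul]
    refine Finset.sum_congr rfl fun s _ => ?_
    rw [mul_assoc, ← A.add]
    congr 2
    ring
  have o : (1 : R ⧸ F).out - 1 ∈ F := out_mk 1
  rw [e, Finset.sum_eq_single 1, A.orth, if_pos o, h.per _ _ o, h.one, inv_one, one_mul]
  · intro s _ k
    rw [A.orth, if_neg, mul_zero]
    exact fun m => k ((Ideal.Quotient.mk_out _).symm.trans (Ideal.Quotient.eq.2 m))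
  · simp

/-- **the size of the Gauss sum at the prime over three** -/
theorem gs_val {V : AbsoluteValue ℂ ℝ} (hV : IsNonarchimedean V) (h3 : V 3 < 1) {m : ℕ}
    (hm : (3 : R) ^ m ∈ F) : V (gs F ω l 1) ^ 2 = V (Nat.card (R ⧸ F)) := by
  have hm' : ((3 ^ m : ℕ) : R) ∈ F := by simpa using hm
  rw [← gs_norm h A (by positivity) hm', map_mul, v_conj (a := j + m) hV h3, sq]
  refine sum_mem fun s _ => mul_mem ?_ (Subring.subset_closure ?_)
  · rcases h.rt s.out with e | e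
    · simp [e]
    · exact zr_root (by rw [pow_add, ← mul_assoc, pow_mul, inv_pow, e, inv_one, one_pow])
  · show _ ^ _ = 1
    rw [pow_add, pow_mul', A.pow, A.one _ (F.mul_mem_right _ hm'), one_pow]

end Ga

end Vale.Agent.P014Y.C.As
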