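import Vale.Agent.P014Y.C.As.St
import Vale.Agent.P014Y.C.Al.Gbx
import Mathlib.NumberTheory.NumberField.Norm

/-!
# P014 Y, C, block AS: a free group of units of bounded index (row UNT)
-/

open NumberField Module
open scoped Classical

noncomputable section

namespace Vale.Agent.P014Y.C.As

namespace Un

/-- coset representatives from a finite invariant -/
theorem reps {G β : Type} [CommGroup G] [Finite β] (U V : Subgroup G) (F : G → β)
    (hF : ∀ u v, u ∈ V → v ∈ V → F u = F v → u / v ∈ U) : ∃ (i : ℕ) (ρ : Fin i → G), 0 < i ∧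
      i ≤ Nat.card β ∧ (V ≤ U → i = 1) ∧ (∀ t, ρ t ∈ V) ∧ ∀ u ∈ V, ∃! t, u / ρ t ∈ U := by
  obtain ⟨R, h1, h2⟩ := Al.Gx.rep_of (p := (· ∈ V)) (r := fun u v => u / v ∈ U)
    (fun a => by simp) (fun a b h => by simpa using inv_mem h)
    (fun a b c _ h k => by simpa using mul_mem h k) F hF
  have k : ∀ a ∈ R, ∀ b ∈ R, a / b ∈ U → a = b := fun a ha b hb h =>
    (h2 a (h1 a ha)).unique ⟨ha, by simp⟩ ⟨hb, h⟩
  have p : 0 < R.card := Finset.card_pos.2 ((h2 1 (one_mem V)).exists.imp fun _ h => h.1)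
  refine ⟨R.card, fun t => R.equivFin.symm t, p, ?_, fun h => le_antisymm (Finset.card_le_one.2
    fun a ha b hb => k a ha b hb (div_mem (h (h1 a ha)) (h (h1 b hb)))) p,
    fun t => h1 _ (R.equivFin.symm t).2, fun u hu => ?_⟩
  · rw [← Nat.card_eq_finsetCard]
    exact Nat.card_le_card_of_injective (fun a : R => F a) fun a b e =>
      Subtype.ext (k _ a.2 _ b.2 (hF _ _ (h1 _ a.2) (h1 _ b.2) e))
  · obtain ⟨b, ⟨hb, e⟩, un⟩ := h2 u hu
    exact ⟨R.equivFin ⟨b, hb⟩, by simpa using e, fun t ht => R.equivFin.symm_apply_eq.1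
      (Subtype.ext (un _ ⟨(R.equivFin.symm t).2, ht⟩))⟩

/-- a free complement of the torsion -/
theorem lift {G κ κ' : Type} [CommGroup G] [Fintype κ] [Fintype κ'] (T V : Subgroup G) (φ : κ → G)
    (li : ∀ c : κ → ℤ, ∏ j, φ j ^ c j ∈ T → c = 0) {N : ℕ} (N0 : N ≠ 0) (h1 : ∀ j, φ j ^ N ∈ V)
    (h2 : ∀ x, ∃ ζ ∈ T, ∃ c : κ → ℤ, x = ζ * ∏ j, φ j ^ c j)
    (tf : ∀ x, ∀ k : ℕ, k ≠ 0 → x ^ k ∈ T → x ∈ T) (hc : Fintype.card κ = Fintype.card κ') :
    ∃ ε : κ' → G, (∀ j, ε j ∈ V) ∧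
      (∀ c d : κ' → ℤ, ∏ j, ε j ^ c j = ∏ j, ε j ^ d j → c = d) ∧
      ∀ u ∈ V, ∃ ζ : T, u / ζ ∈ Subgroup.closure (Set.range ε) := by
  let q := QuotientGroup.mk' T
  have q1 : ∀ u, q u = 1 ↔ u ∈ T := QuotientGroup.eq_one_iff
  obtain ⟨γ, g1, g2⟩ := Al.Gx.free_mul (κ' := κ') (V.map q) (fun j => q (φ j))
    (fun c h => li c ((q1 _).1 (by simpa only [map_prod, map_zpow] using h))) N0
    (fun j => ⟨φ j ^ N, h1 j, map_pow _ _ _⟩)
    (fun x ⟨u, _, e⟩ => by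
      obtain ⟨ζ, z, c, hc⟩ := h2 (u ^ N)
      exact ⟨c, by rw [← e, ← map_pow, hc, map_mul, (q1 _).2 z]; simp⟩)
    (fun x ⟨u, _, e⟩ k k0 h => e ▸ (q1 u).2 (tf u k k0 ((q1 _).1 (by rw [map_pow, e, h])))) hc
  have k : ∀ j, ∃ e ∈ V, q e = γ j := fun j =>
    (g1 (γ j)).2 ⟨Pi.single j 1, by simp [Pi.single_apply]⟩
  choose ε k1 k2 using k
  have hq : ∀ c : κ' → ℤ, q (∏ j, ε j ^ c j) = ∏ j, γ j ^ c j := fun c => by
    simp only [map_prod, map_zpow, k2]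
  refine ⟨ε, k1, fun c d h => sub_eq_zero.1 (g2 _ ?_), fun u hu => ?_⟩
  · simp only [Pi.sub_apply, zpow_sub, Finset.prod_mul_distrib, Finset.prod_inv_distrib, ← hq, h,
      mul_inv_cancel]
  · obtain ⟨c, e⟩ := (g1 (q u)).1 ⟨u, hu, rfl⟩
    refine ⟨⟨u / ∏ j, ε j ^ c j, (q1 _).1 (by rw [map_div, hq, ← e, div_self'])⟩, ?_⟩
    rw [div_div_cancel]
    exact Subgroup.mem_closure_range_iff_of_fintype.2 ⟨c, rfl⟩

end Un

theorem unt : UNT := by
  intro K _ _ ι J Ω B M _ _ _ p hp f hf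
  have := Ideal.finiteQuotientOfFreeOfNeBot f hf
  let N : (𝓞 M)ˣ →* (𝓞 K)ˣ := Units.map (RingOfIntegers.norm K)
  let V := (Units.map (Ideal.Quotient.mk f : 𝓞 M →* 𝓞 M ⧸ f)).ker
  have hV : ∀ u, u ∈ V ↔ (u : 𝓞 M) - 1 ∈ f := fun u =>
    Units.ext_iff.trans (Ideal.Quotient.eq (x := (u : 𝓞 M)) (y := 1))
  have hN : ∀ u, N u = 1 ↔ Algebra.norm K ((u : 𝓞 M) : M) = 1 := fun u =>
    Units.ext_iff.trans (RingOfIntegers.coe_injective.eq_iff.symm)
  have n2 : ∀ u : (𝓞 K)ˣ, u ^ 2 = 1 := fun u => by rcases B.upm u with rfl | rfl <;> simp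
  obtain ⟨ε, h1, h2, hz⟩ := Un.lift (κ' := Fin p) (Units.torsion M) (V ⊓ N.ker)
    (Units.fundSystem M) (fun c h => (Units.fun_eq_repr M (one_mem _) (one_mul _).symm).trans
      (Units.fun_eq_repr M (f := 0) h (by simp)).symm)
    (N := 2 * Nat.card (𝓞 M ⧸ f)ˣ) (mul_ne_zero two_ne_zero Nat.card_pos.ne')
    (fun j => ⟨MonoidHom.mem_ker.2 (by rw [map_pow, pow_mul', pow_card_eq_one', one_pow]),
      MonoidHom.mem_ker.2 (by rw [map_pow, pow_mul, n2, one_pow])⟩)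
    (fun x => let ⟨z, hc, _⟩ := Units.exist_unique_eq_mul_prod M x; ⟨z.1, z.1.2, z.2, hc⟩)
    (fun x k k0 h => IsOfFinOrder.of_pow h k0) (by have := Al.Gx.rank_eq B hp; simp; omega)
  let U := Subgroup.closure (Set.range ε)
  have hU : U ≤ V ⊓ N.ker := (Subgroup.closure_le _).2 (Set.range_subset_iff.2 h1)
  choose! ζ hζ using hz
  have hs : ∀ η : (𝓞 K)ˣ, ∃ s, ∀ u ∈ V, N u = η → u / s ∈ V ⊓ N.ker := fun η => by
    by_cases h : ∃ s ∈ V, N s = η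
    · obtain ⟨s, a, b⟩ := h
      exact ⟨s, fun u c d => ⟨V.div_mem c a, show N _ = 1 by rw [map_div, b, d, div_self']⟩⟩
    · exact ⟨1, fun u c d => (h ⟨u, c, d⟩).elim⟩
  choose s hs using hs
  have sj : Function.Surjective fun b : Bool => if b then (1 : (𝓞 K)ˣ) else -1 := fun u => by
    rcases B.upm u with rfl | rfl
    exacts [⟨true, rfl⟩, ⟨false, rfl⟩]
  have := Finite.of_surjective _ sj
  obtain ⟨i, ρ, a1, a2, a3, a4, a5⟩ := Un.reps U V (fun u => (N u, ζ (u / s (N u))))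
    fun u v hu hv e => by
      obtain ⟨e1, e2⟩ := Prod.mk.inj e
      have := div_mem (hζ _ (hs _ u hu rfl)) (hζ _ (hs _ v hv rfl))
      rwa [e2, e1, div_div_div_cancel_right, div_div_div_cancel_right] at this
  refine ⟨U, fun j => ⟨ε j, Subgroup.subset_closure ⟨j, rfl⟩⟩, i, ρ, fun u => ?_,
    fun u hu => ⟨(hN u).1 (hU hu).2, (hV u).1 (hU hu).1⟩, a1, a2.trans ?_,
    fun t n => a3 fun u hu => ?_, fun t => (hV _).1 (a4 t), fun u hu => a5 u ((hV u).2 hu)⟩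
  · obtain ⟨c, e⟩ := Subgroup.mem_closure_range_iff_of_fintype.1 u.2
    exact ⟨c, Subtype.ext (by simpa using e), fun d h => h2 _ _ ((show u.1 = _ by
      simpa using congrArg Subtype.val h).symm.trans e)⟩
  · rw [Nat.card_prod]
    exact Nat.mul_le_mul_right _ ((Nat.card_le_card_of_surjective _ sj).trans (by simp))
  · have m : u ∈ V ⊓ N.ker := ⟨hu, (hN u).2 (n u ((hV u).1 hu))⟩
    have := hζ u m
    rwa [t (ζ u) ((hV _).1 (by simpa using div_mem hu (hU this).1)) (ζ u).2, div_one] at this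

end Vale.Agent.P014Y.C.As
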