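import Vale.Agent.P014Y.C.As.Idl
import Vale.Agent.P014Y.C.As.Val
import Vale.Agent.P014Y.C.As.Vaq
import Vale.Agent.P014Y.C.As.Dua
import Vale.Agent.P014Y.C.As.Unt
import Vale.Agent.P014Y.C.As.Ray
import Vale.Agent.P014Y.C.As.Hcn
import Vale.Agent.P014Y.C.As.Vtx
import Vale.Agent.P014Y.C.As.Fou
import Vale.Agent.P014Y.C.As.Bnd
import Vale.Agent.P004C.An.Ipl

/-!
# P014 Y, C, block AS: the exports from the measures
-/

namespace Vale.Agent.P014Y.C.As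

theorem idl0 (hA : Ms.BAS) (hM : Ms.MSR) (hT : Ms.TFC) : IDL :=
  idl P004C.An.ipl hA hM hT unt ray vtx val vaq0

theorem bnd0 (hA : Ms.BAS) (hM : Ms.MSR) (hT : Ms.TFC) : BND :=
  bnd (idl0 hA hM hT) dua (hcn val) val vaq0

end Vale.Agent.P014Y.C.As
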