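import Vale.Agent.P014Y.C.As.St

/-!
# P014 Y, C, block AS: small shared lemmas
-/

set_option linter.unusedSectionVars false

open NumberField Module
open scoped Classical

noncomputable section

namespace Vale.Agent.P014Y.C.As

section

variable {M : Type} [Field M] [NumberField M]

theorem smooth' {c : Ideal (𝓞 M)} {l : ℕ} (hc : c ≠ ⊥) (F : Ideal (𝓞 M) → ℂ) (hF : Summable F) :
    Summable (fun I => F (c * I)) ∧
    ∑' I, xi c l I * F I = ∑' I, F I - l * ∑' I, F (c * I) := by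
  have inj : Function.Injective fun I : Ideal (𝓞 M) => c * I := fun I I' h => mul_left_cancel₀ hc h
  have s1 : Summable fun I => F (c * I) := hF.comp_injective inj
  refine ⟨s1, ?_⟩
  have h2 : HasSum (fun I => if c ∣ I then F I else 0) (∑' I, F (c * I)) := by
    refine (inj.hasSum_iff ?_).1 ?_
    · intro I hI
      rw [if_neg]
      rintro ⟨I', rfl⟩
      exact hI ⟨I', rfl⟩
    · refine s1.hasSum.congr_fun ?_ |>.trans le_rfl
      intro I
      simp
  have h3 := hF.hasSum.sub (h2.mul_left (l : ℂ))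
  rw [← h3.tsum_eq]
  refine tsum_congr fun I => ?_
  unfold xi
  split_ifs <;> ring

theorem xi_ge {c : Ideal (𝓞 M)} {l : ℕ} (hl : 2 ≤ l) (I : Ideal (𝓞 M)) : 1 ≤ ‖xi c l I‖ := by
  unfold xi
  split_ifs
  · obtain ⟨m, rfl⟩ := Nat.exists_eq_add_of_le hl
    have : (1 : ℂ) - ((2 + m : ℕ) : ℂ) = -((m + 1 : ℕ) : ℂ) := by push_cast; ring
    rw [this, norm_neg, Complex.norm_natCast]
    exact_mod_cast Nat.succ_pos m
  · simp

theorem summ_xi {c : Ideal (𝓞 M)} {l : ℕ} (hl : 2 ≤ l) {F : Ideal (𝓞 M) → ℂ}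
    (h : Summable fun I => xi c l I * F I) : Summable F := by
  refine Summable.of_norm_bounded h.norm fun I => ?_
  rw [norm_mul]
  exact le_mul_of_one_le_left (norm_nonneg _) (xi_ge hl I)

theorem smooth {c : Ideal (𝓞 M)} {l : ℕ} (hl : 2 ≤ l) (hN : Ideal.absNorm c = l)
    {a : Ideal (𝓞 M) → ℂ} (ha : ∀ I I', a (I * I') = a I * a I') {C Z s : ℂ} (hC : C ≠ 0)
    (h : HasSum (fun I => C * (xi c l I * (a I * (Ideal.absNorm I : ℂ) ^ (-s)))) Z) :
    Summable (fun I => a I * (Ideal.absNorm I : ℂ) ^ (-s)) ∧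
    Z = C * (1 - l * a c * (l : ℂ) ^ (-s)) * ∑' I, a I * (Ideal.absNorm I : ℂ) ^ (-s) := by
  have hc : c ≠ ⊥ := by
    rintro rfl
    simp at hN
    omega
  have s0 := summ_xi hl ((summable_mul_left_iff hC).1 h.summable)
  refine ⟨s0, ?_⟩
  rw [← h.tsum_eq, tsum_mul_left, (smooth' (l := l) hc _ s0).2]
  have e : ∀ I, a (c * I) * (Ideal.absNorm (c * I) : ℂ) ^ (-s) =
      a c * (l : ℂ) ^ (-s) * (a I * (Ideal.absNorm I : ℂ) ^ (-s)) := by
    intro I
    rw [ha, map_mul, hN, Nat.cast_mul, Complex.natCast_mul_natCast_cpow]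
    ring
  simp only [e]
  rw [tsum_mul_left]
  ring

theorem ac0 {a : Ideal (𝓞 M) → ℂ} {z : ℂ} (h : AC a z) {k : ℕ} (hk : 0 < k) {Z G : ℂ → ℂ}
    (hZ : DifferentiableOn ℂ Z (Hp k)) (hG : Differentiable ℂ G)
    (e : ∀ s : ℂ, 1 < s.re → Z s = G s * ∑' I, a I * (Ideal.absNorm I : ℂ) ^ (-s)) :
    Z 0 = G 0 * z := by
  obtain ⟨δ, hδ, D, E, hD, hE, h0, h1, h2⟩ := h
  set r : ℝ := min δ (1 / 2) with hr
  have r0 : 0 < r := lt_min hδ (by norm_num)
  have r1 : r ≤ δ := min_le_left _ _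
  have r2 : r ≤ 1 / 2 := min_le_right _ _
  have k1 : (1 : ℝ) ≤ k := by exact_mod_cast hk
  set U : Set ℂ := {s | -r < s.re} with hU
  have o : IsOpen U := isOpen_lt continuous_const Complex.continuous_re
  have u1 : U ⊆ {s : ℂ | -δ < s.re} := fun s hs => by
    simp only [hU, Set.mem_ofPred_eq] at hs ⊢
    linarith
  have u2 : U ⊆ Hp k := fun s hs => by
    simp only [hU, Hp, Set.mem_ofPred_eq] at hs ⊢
    linarith
  have a1 : AnalyticOnNhd ℂ (fun s => E s * Z s) U :=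
    ((hE.mono u1).mul (hZ.mono u2)).analyticOnNhd o
  have a2 : AnalyticOnNhd ℂ (fun s => G s * D s) U :=
    (hG.differentiableOn.mul (hD.mono u1)).analyticOnNhd o
  have pc : IsPreconnected U := (convex_halfSpace_re_gt (-r)).isPreconnected
  have m2 : (2 : ℂ) ∈ U := by
    simp only [hU, Set.mem_ofPred_eq, Complex.re_ofNat]
    linarith
  have ev : (fun s => E s * Z s) =ᶠ[nhds 2] fun s => G s * D s := by
    have : {s : ℂ | 1 < s.re} ∈ nhds (2 : ℂ) :=
      (isOpen_lt continuous_const Complex.continuous_re).mem_nhds (by simp)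
    filter_upwards [this] with s hs
    rw [e s hs, h2 s hs]
    ring
  have := a1.eqOn_of_preconnected_of_eventuallyEq a2 pc m2 ev
    (show (0 : ℂ) ∈ U by simpa [hU] using r0)
  simp only [h1] at this
  apply mul_left_cancel₀ h0
  rw [this]
  ring

end

theorem ult {A B : ℂ_[3]} (h : ‖A - B‖ < ‖A‖) : ‖B‖ = ‖A‖ := by
  have := IsUltrametricDist.norm_add_eq_max_of_norm_ne_norm (x := A) (y := -(A - B))
    (by rw [norm_neg]; exact h.ne')
  rw [norm_neg, max_eq_left h.le] at this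
  simpa using this

theorem nv_norm (Ωp : ℂ_[3]) (n k : ℕ) (z : ℂ_[3]) :
    ‖nv Ωp n k z‖ = (‖((k - 1).factorial : ℂ_[3])‖ / ‖Ωp‖ ^ k) ^ n * ‖z‖ := by
  simp [nv]

theorem n_two : ‖(3 : ℂ_[3])‖ = 1 / 3 := by
  have := (PadicComplex.norm_extends' 3 ((3 : ℕ) : ℚ_[3])).trans Padic.norm_p
  rw [map_natCast, PadicComplex.coe_natCast] at this
  simpa using this

theorem n_int {R : Type} [CommRing R] (f : R →+* ℂ_[3]) {x : R} (h : IsIntegral ℤ x) :
    ‖f x‖ ≤ 1 :=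
  (Valuation.integer.integers (NormedField.valuation (K := ℂ_[3]))).mem_of_integral
    (h.map_of_comp_eq (Int.castRingHom _) f (RingHom.ext_int _ _))

theorem n_odd {l : ℕ} (h : Nat.Coprime l 3) : ‖(l : ℂ_[3])‖ = 1 := by
  have := (PadicComplex.norm_extends' 3 ((l : ℕ) : ℚ_[3])).trans
    (Padic.norm_natCast_eq_one_iff.2 h.symm)
  rwa [map_natCast, PadicComplex.coe_natCast] at this

theorem n_pow_sub {x y : ℂ_[3]} (hx : ‖x‖ ≤ 1) (hy : ‖y‖ ≤ 1) (k : ℕ) :
    ‖x ^ k - y ^ k‖ ≤ ‖x - y‖ := by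
  induction k with
  | zero => simp
  | succ k ih =>
    have e : x ^ (k + 1) - y ^ (k + 1) = x * (x ^ k - y ^ k) + (x - y) * y ^ k := by ring
    rw [e]
    refine (IsUltrametricDist.norm_add_le_max _ _).trans (max_le ?_ ?_)
    · rw [norm_mul]
      exact (mul_le_of_le_one_left (norm_nonneg _) hx).trans ih
    · rw [norm_mul, norm_pow]
      exact mul_le_of_le_one_right (norm_nonneg _) (pow_le_one₀ (norm_nonneg _) hy)

section

variable {K : Type} [Field K] [NumberField K] {ι : ℂ →+* ℂ_[3]} {J : K →+* ℂ}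
  {M : Type} [Field M] [NumberField M] [Algebra K M]

theorem pv_c {c : Ideal (𝓞 M)} {l : ℕ} (h : Sm c l) : Pv ι J c := by
  refine ⟨l, ?_, ?_⟩
  · simpa using n_odd ((Nat.coprime_primes h.1 Nat.prime_three).2 h.2.1)
  · rw [map_natCast, ← h.2.2.1]
    exact Ideal.absNorm_mem c

theorem pv_top : Pv ι J (⊤ : Ideal (𝓞 M)) := ⟨1, by simp, trivial⟩

/-- the Euler factor at the smoothing prime stays a unit -/
theorem eul_c {l : ℕ} {u v : ℂ} {δ : ℝ} (h : ‖ι (u - v)‖ ≤ δ) (hδ : δ < 1)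
    (h1 : ‖ι (1 - l * v)‖ = 1) : ‖ι (1 - l * u)‖ = 1 := by
  rw [← h1]
  apply ult
  have e : ι (1 - l * v) - ι (1 - l * u) = l * ι (u - v) := by
    simp only [map_sub, map_mul, map_one, map_natCast]
    ring
  rw [e, h1, norm_mul]
  have := IsUltrametricDist.norm_natCast_le_one ℂ_[3] l
  nlinarith [norm_nonneg (ι (u - v)), norm_nonneg (l : ℂ_[3])]

/-- a bound at the integers which are `1` modulo `f` passes to the limit -/
theorem nr_lim (val : VAL) {Ω : ℝ} (hB : Base ι J Ω) {f : Ideal (𝓞 M)} (hf : Pv ι J f) {z : M}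
    (hz : Vi ι J z) {k k' : ℕ} {δ : ℝ}
    (h : ∀ x : 𝓞 M, x - 1 ∈ f → Vi ι J ((x - z) / 3) →
      ‖ι (J (Algebra.norm K (x : M))) ^ k - ι (J (Algebra.norm K (x : M))) ^ k'‖ ≤ δ) :
    ‖ι (J (Algebra.norm K z)) ^ k - ι (J (Algebra.norm K z)) ^ k'‖ ≤ δ := by
  obtain ⟨-, v2, v3, v4, -⟩ := (val K ι J Ω hB).2.2 M
  refine le_of_forall_pos_le_add fun ε hε => ?_
  obtain ⟨m, hm⟩ := exists_pow_lt_of_lt_one hε (show (1 / 3 : ℝ) < 1 by norm_num)
  obtain ⟨x, x1, x2⟩ := v4 f z (m + 1) hf hz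
  have x3 : Vi ι J ((x - z) / 3) := by
    have := Vi_mul (Vi_of ι J (3 ^ m : 𝓞 M)) x2
    have e : ((3 ^ m : 𝓞 M) : M) * (((x : M) - z) / 3 ^ (m + 1)) = (x - z) / 3 := by
      have : ((3 ^ m : 𝓞 M) : M) = 3 ^ m := by
        show algebraMap (𝓞 M) M _ = _
        rw [map_pow, map_ofNat]
      rw [this]
      field_simp
      ring
    rwa [e] at this
  have c := v3 z x (m + 1) hz x2
  rw [n_two] at c
  have c' : ‖ι (J (Algebra.norm K (x : M))) - ι (J (Algebra.norm K z))‖ ≤ ε := by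
    refine c.trans ?_
    rw [pow_succ]
    have : 0 < (1 / 3 : ℝ) ^ m := by positivity
    linarith
  have n1 := (v2 z hz).2.1
  have n2 := (v2 x (Vi_of ι J x)).2.1
  have d0 : 0 ≤ δ := (norm_nonneg _).trans (h x x1 x3)
  set X := ι (J (Algebra.norm K (x : M)))
  set Y := ι (J (Algebra.norm K z))
  have e : Y ^ k - Y ^ k' = (X ^ k - X ^ k') + (-(X ^ k - Y ^ k) + (X ^ k' - Y ^ k')) := by ring
  rw [e]
  refine (norm_add_le _ _).trans (add_le_add (h x x1 x3) ?_)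
  refine (IsUltrametricDist.norm_add_le_max _ _).trans (max_le ?_ ?_)
  · rw [norm_neg]
    exact (n_pow_sub n2 n1 k).trans c'
  · exact (n_pow_sub n2 n1 k').trans c'

end

end Vale.Agent.P014Y.C.As
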