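import Vale.Agent.P014Y.C.As.Defs

/-!
# P014 Y, C, block AS: rows
-/

open NumberField Module
open scoped Classical

noncomputable section

namespace Vale.Agent.P014Y.C.As

open P004C.An

/-- a free subgroup of bounded index in the units which are `1` modulo `f` -/
def UNT : Prop := ∀ (K : Type) [Field K] [NumberField K] (ι : ℂ →+* ℂ_[3]) (J : K →+* ℂ) (Ω : ℝ),
  Base ι J Ω → ∀ (M : Type) [Field M] [NumberField M] [Algebra K M] (p : ℕ), finrank K M = p + 1 →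
  ∀ f : Ideal (𝓞 M), f ≠ ⊥ → ∃ (U : Subgroup (𝓞 M)ˣ) (ε : Fin p → U) (i : ℕ) (ρ : Fin i → (𝓞 M)ˣ),
    (∀ u : U, ∃! e : Fin p → ℤ, u = ∏ j, ε j ^ e j) ∧
    (∀ u ∈ U, Algebra.norm K ((u : 𝓞 M) : M) = 1 ∧ (u : 𝓞 M) - 1 ∈ f) ∧
    0 < i ∧ i ≤ 2 * Units.torsionOrder M ∧ (TF f → (∀ u : (𝓞 M)ˣ, (u : 𝓞 M) - 1 ∈ f →
      Algebra.norm K ((u : 𝓞 M) : M) = 1) → i = 1) ∧ (∀ t, (ρ t : 𝓞 M) - 1 ∈ f) ∧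
    ∀ u : (𝓞 M)ˣ, (u : 𝓞 M) - 1 ∈ f → ∃! t, u / ρ t ∈ U

/-- ray classes -/
def RAY : Prop := ∀ (M : Type) [Field M] [NumberField M] (f A : Ideal (𝓞 M)), f ≠ ⊥ → A ≠ ⊥ →
  ∃ (β : Type) (_ : Fintype β) (B : β → Ideal (𝓞 M)), (∀ j, Cp f (B j) ∧ B j ⊔ A = ⊤) ∧
    ∀ Q I, Cp f Q → Cp f I → ∃! j, ∃ x, E f x (I * B j) Q

/-- the vertex -/
def VTX : Prop := ∀ (K : Type) [Field K] [NumberField K] (M : Type) [Field M] [NumberField M]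
  [Algebra K M] (n : ℕ), finrank K M = n → ∀ (c : Ideal (𝓞 M)) (l : ℕ), Sm c l →
  ∀ (f A w : Ideal (𝓞 M)) (N : ℕ), f ≠ ⊥ → f ⊔ c = ⊤ → Cp c A → w.IsMaximal → f ≤ w →
  (N : 𝓞 M) ∉ w → ∀ S : Set M, S.Finite → ∃ t : 𝓞 M,
    (∀ x, Lf N f (x - 1) → Algebra.trace K M (t * x) ≠ 0) ∧
    ∀ a : Fin n → M, (∀ j, a j ∈ S) → ∀ j, ∃ d : 𝓞 M, d ∈ A ∧ d ∉ c ∧
      ∀ i, i ≠ j → Algebra.trace K M (a i * t * d) = 0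

/-- series over ideals (from `CORE`, `UNT`, `RAY`, `VTX`) -/
def IDL : Prop := ∀ (K : Type) [Field K] [NumberField K] (ι : ℂ →+* ℂ_[3]) (J : K →+* ℂ) (Ω : ℝ),
  Base ι J Ω → ∃ (Ωp : ℂ_[3]) (ψ : AddChar K ℂ), ‖Ωp‖ = Ω ∧ Ps ι J ψ ∧
  ∀ (M : Type) [Field M] [NumberField M] [Algebra K M] (n : ℕ) (b : Basis (Fin n) K M),
  Vb ι J b → ∀ (c : Ideal (𝓞 M)) (l : ℕ), Sm c l → ∀ f : Ideal (𝓞 M), Pv ι J f →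
  f ⊔ Ideal.span {(l : 𝓞 M)} = ⊤ → (∃ w : Ideal (𝓞 M), w.IsMaximal ∧ f ≤ w ∧ 3 ∉ w) →
  ∀ m : ℕ, ∃ (i : ℕ) (β : Type) (_ : Fintype β) (B : β → Ideal (𝓞 M))
    (j : Ideal (𝓞 M) → β) (x : Ideal (𝓞 M) → M), 0 < i ∧ i ≤ 2 * Units.torsionOrder M ∧
    (TF f → (∀ u : (𝓞 M)ˣ, (u : 𝓞 M) - 1 ∈ f → Algebra.norm K ((u : 𝓞 M) : M) = 1) → i = 1) ∧
    (∀ j, Cp f (B j) ∧ B j ⊔ Ideal.span {3} = ⊤) ∧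
    (∀ I, Cp f I → E f (x I) (I * B (j I)) (Qm ι J M m)) ∧
    ∀ (μ : Type) [Fintype μ] (y : μ → M) (g : μ → ℂ), (∀ i, Fd ι J 0 (y i)) →
    (∀ i, ‖ι (g i)‖ ≤ 1) → (∀ u : (𝓞 M)ˣ, (u : 𝓞 M) - 1 ∈ f → ∀ x,
      hv ι J ψ m n y g (((u : 𝓞 M) : M) * x) = hv ι J ψ m n y g x) →
    ∃ Z : ℕ → (β → ℂ) → ℂ → ℂ, (∀ k w, 0 < k → DifferentiableOn ℂ (Z k w) (Hp k) ∧
      ((∀ u : (𝓞 M)ˣ, (u : 𝓞 M) - 1 ∈ f → Algebra.norm K ((u : 𝓞 M) : M) ^ k = 1) → ∀ s : ℂ,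
        2 < (k : ℝ) + 2 * s.re → HasSum (fun I => if Cp f I then i * (w (j I) * xi c l I *
          hv ι J ψ m n y g (x I) / J (Algebra.norm K (x I)) ^ k * (Ideal.absNorm I : ℂ) ^ (-s))
          else 0) (Z k w s))) ∧
      ∀ (k k' : ℕ) (w w' : β → ℂ) (ν : ℂ_[3]) (δ δ' : ℝ), 0 < k → 0 < k' → 0 ≤ δ → 0 ≤ δ' →
        (∀ j, ‖ι (w j)‖ ≤ 1) → (∀ j, ‖ν‖ * ‖ι (w j - w' j)‖ * δ' ≤ δ) → Nr ι J m k k' y ν δ →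
        Nr ι J m k' k' y 0 δ' →
        ‖nv Ωp n k (ι (Z k w 0)) - ν * nv Ωp n k' (ι (Z k' w' 0))‖ ≤ δ / √(dv ι J b)

/-- valuations at `v` -/
def VAL : Prop := ∀ (K : Type) [Field K] [NumberField K] (ι : ℂ →+* ℂ_[3]) (J : K →+* ℂ) (Ω : ℝ),
  Base ι J Ω → (∃ π : 𝓞 K, ‖ι (J π)‖ < 1 ∧ Vp ι J π) ∧
  (∀ s : 𝓞 K, Vp ι J s → ‖ι ((starRingEnd ℂ) (J s))‖ = 1 ∧ ∃ a : ℕ, s ∣ 3 ^ a) ∧
  ∀ (M : Type) [Field M] [NumberField M] [Algebra K M],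
    (∀ w : K, Vi ι J (algebraMap K M w) ↔ ‖ι (J w)‖ ≤ 1) ∧
    (∀ z : M, Vi ι J z → ‖ι (J (Algebra.trace K M z))‖ ≤ 1 ∧ ‖ι (J (Algebra.norm K z))‖ ≤ 1 ∧
      (‖ι (J (Algebra.norm K z))‖ = 1 → Vi ι J z⁻¹)) ∧
    (∀ (z x : M) (m : ℕ), Vi ι J z → Vi ι J ((x - z) / 3 ^ m) →
      ‖ι (J (Algebra.norm K x)) - ι (J (Algebra.norm K z))‖ ≤ ‖(3 : ℂ_[3])‖ ^ m) ∧
    (∀ (f : Ideal (𝓞 M)) (z : M) (m : ℕ), Pv ι J f → Vi ι J z →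
      ∃ x : 𝓞 M, x - 1 ∈ f ∧ Vi ι J ((x - z) / 3 ^ m)) ∧
    ∀ x : 𝓞 M, Pv ι J (Ideal.span {x}) ↔ ‖ι (J (Algebra.norm K (x : M)))‖ = 1

/-- the ideal `v` -/
def VAQ : Prop := ∀ (K : Type) [Field K] [NumberField K] (ι : ℂ →+* ℂ_[3]) (J : K →+* ℂ) (Ω : ℝ),
  Base ι J Ω → ∀ (M : Type) [Field M] [NumberField M] [Algebra K M],
    (∀ I : Ideal (𝓞 M), Pv ι J I ↔ I ⊔ Qm ι J M 1 = ⊤) ∧
    (∀ P : Ideal (𝓞 M), Av ι J P ↔ P.IsMaximal ∧ Qm ι J M 1 ≤ P) ∧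
    (∀ m, Qm ι J M m = Qm ι J M 1 ^ m) ∧
    Ideal.absNorm (Qm ι J M 1) = 3 ^ finrank K M ∧
    ∀ (x : M) (I A : Ideal (𝓞 M)), Pv ι J I → (∀ y ∈ I * A, Vi ι J (x * y)) → ∀ y ∈ A, Vi ι J (x * y)

/-- a generator of the inverse different at `v` -/
def DUA : Prop := ∀ (K : Type) [Field K] [NumberField K] (ι : ℂ →+* ℂ_[3]) (J : K →+* ℂ) (Ω : ℝ),
  Base ι J Ω → ∀ (M : Type) [Field M] [NumberField M] [Algebra K M] (n : ℕ)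
  (b : Basis (Fin n) K M), Vb ι J b → ∃ y₀ : M, y₀ ≠ 0 ∧
    (∀ (m : ℕ) (x : M), Fd ι J m (3 ^ m * y₀ * x) ↔ Vi ι J x) ∧
    ‖ι (J (Algebra.norm K y₀))‖ * dv ι J b = 1

/-- sizes of the values of Hecke characters -/
def HCN : Prop := ∀ (K : Type) [Field K] [NumberField K] (ι : ℂ →+* ℂ_[3]) (J : K →+* ℂ) (Ω : ℝ),
  Base ι J Ω → ∀ (M : Type) [Field M] [NumberField M] [Algebra K M] (k : ℕ) (f : Ideal (𝓞 M))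
  (a : Ideal (𝓞 M) → ℂ), f ≠ ⊥ → HC J k f a →
    (∀ u : (𝓞 M)ˣ, (u : 𝓞 M) - 1 ∈ f → Algebra.norm K ((u : 𝓞 M) : M) ^ k = 1) ∧
    (∀ x I I', E f x I I' → a I = a I' / J (Algebra.norm K x) ^ k) ∧
    (∀ I, Cp f I → Pv ι J I → ‖ι (a I)‖ = 1) ∧
    ∀ P, Cp f P → Av ι J P → ‖(Ideal.absNorm P : ℂ_[3])‖ < 1 ∧
      ‖ι (a P)‖ * ‖(Ideal.absNorm P : ℂ_[3])‖ ^ k = 1

/-- Fourier transform of the units at `v` -/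
def FOU : Prop := ∀ (K : Type) [Field K] [NumberField K] (ι : ℂ →+* ℂ_[3]) (J : K →+* ℂ) (Ω : ℝ),
  Base ι J Ω → ∀ ψ : AddChar K ℂ, Ps ι J ψ → ∀ (M : Type) [Field M] [NumberField M] [Algebra K M]
  (n : ℕ), finrank K M = n → ∀ y₀ : M, (∀ x, Fd ι J 0 (y₀ * x) ↔ Vi ι J x) →
  ∀ S : Finset (Ideal (𝓞 M)), (∀ P, P ∈ S ↔ Av ι J P) →
  ∃ (μ : Type) (_ : Fintype μ) (r : μ → 𝓞 M), (∀ i, ‖ι (J (Algebra.norm K (r i : M)))‖ = 1) ∧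
    ∀ x : M, Vi ι J (3 * x) → hv ι J ψ 1 n (fun i => y₀ * r i) (fun _ => 1) x =
      ∑ T ∈ S.powerset, if ∀ y ∈ ∏ P ∈ T, P, Vi ι J (x * y) then
        (-1) ^ T.card / (Ideal.absNorm (∏ P ∈ T, P) : ℂ) else 0

end Vale.Agent.P014Y.C.As
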